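import Mathlib

/-!
# Lattice points in a ball of radius `r` in dimension three (Gauss), leading order
-/

namespace Vale.Agent.P171

open MeasureTheory Filter Topology
open scoped Pointwise

/-- The Euclidean unit ball of `ℝ^3` seen in `Fin 3 → ℝ`. -/
def uball : Set (Fin 3 → ℝ) := {x | ∑ i, (x i) ^ 2 ≤ 1}

theorem uball_eq_preimage :
    uball = (WithLp.toLp 2 : (Fin 3 → ℝ) → EuclideanSpace ℝ (Fin 3)) ⁻¹'
      (Metric.closedBall 0 1) := by
  ext x
  simp only [uball, Set.mem_ofPred_eq, Set.mem_preimage, Metric.mem_closedBall, dist_zero_right]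
  rw [EuclideanSpace.norm_eq, Real.sqrt_le_one]
  simp

theorem uball_volume : volume.real uball = 4 * Real.pi / 3 := by
  have h := (EuclideanSpace.volume_preserving_symm_measurableEquiv_toLp (Fin 3)).symm
  have h2 := h.measure_preimage (s := Metric.closedBall 0 1)
    (measurableSet_closedBall.nullMeasurableSet)
  rw [uball_eq_preimage, Measure.real]
  have : (WithLp.toLp 2 : (Fin 3 → ℝ) → EuclideanSpace ℝ (Fin 3)) ⁻¹' (Metric.closedBall 0 1)
    = ((MeasurableEquiv.toLp 2 (Fin 3 → ℝ)).symm.symm) ⁻¹' (Metric.closedBall 0 1) := rfl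
  rw [this, h2, EuclideanSpace.volume_closedBall_fin_three]
  rw [ENNReal.ofReal_one, one_pow, one_mul, ENNReal.toReal_ofReal (by positivity)]
  ring

theorem uball_convex : Convex ℝ uball := by
  rw [uball_eq_preimage]
  exact (convex_closedBall (0 : EuclideanSpace ℝ (Fin 3)) 1).linear_preimage
    (WithLp.linearEquiv 2 ℝ (Fin 3 → ℝ)).symm.toLinearMap

theorem uball_closed : IsClosed uball := by
  unfold uball
  exact isClosed_le (by fun_prop) continuous_const

theorem uball_bounded : Bornology.IsBounded uball := by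
  rw [Metric.isBounded_iff_subset_closedBall 0]
  refine ⟨1, fun x hx => ?_⟩
  rw [Metric.mem_closedBall, dist_zero_right, pi_norm_le_iff_of_nonneg zero_le_one]
  intro i
  rw [Real.norm_eq_abs, ← sq_le_one_iff_abs_le_one]
  exact le_trans (Finset.single_le_sum (f := fun i => (x i)^2) (fun _ _ => sq_nonneg _)
    (Finset.mem_univ i)) hx

theorem uball_smul_mono ⦃x y : ℝ⦄ (hx : 0 < x) (hxy : x ≤ y) : x • uball ⊆ y • uball := by
  have hy : 0 < y := hx.trans_le hxy
  intro v hv
  rw [Set.mem_smul_set_iff_inv_smul_mem₀ hx.ne'] at hv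
  rw [Set.mem_smul_set_iff_inv_smul_mem₀ hy.ne']
  simp only [uball, Set.mem_ofPred_eq, Pi.smul_apply, smul_eq_mul] at *
  refine le_trans (Finset.sum_le_sum fun i _ => ?_) hv
  rw [mul_pow, mul_pow]
  have : y⁻¹ ≤ x⁻¹ := inv_anti₀ hx hxy
  have h0 : 0 ≤ y⁻¹ := by positivity
  gcongr

theorem lattice_count : Filter.Tendsto
    (fun r : ℝ => (Set.ncard {k : Fin 3 → ℤ | (∑ i, (k i : ℝ)^2) ≤ r^2} : ℝ) / r^3)
    Filter.atTop (nhds (4 * Real.pi / 3)) := by
  have h := tendsto_card_div_pow_atTop_volume' uball uball_bounded uball_closed.measurableSet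
    (uball_convex.addHaar_frontier volume) uball_smul_mono
  rw [uball_volume] at h
  refine h.congr' ?_
  filter_upwards [eventually_gt_atTop 0] with r hr
  rw [Fintype.card_fin]
  congr 2
  rw [← Nat.card_coe_set_eq]
  symm
  refine Nat.card_congr (Equiv.ofBijective
    (fun k : {k : Fin 3 → ℤ | (∑ i, (k i : ℝ)^2) ≤ r^2} =>
      (⟨fun i => r⁻¹ * ((k : Fin 3 → ℤ) i : ℝ), ?_⟩ :
        ↑(uball ∩ r⁻¹ • (Submodule.span ℤ (Set.range (Pi.basisFun ℝ (Fin 3))) :
          Set (Fin 3 → ℝ))))) ⟨?_, ?_⟩)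
  · obtain ⟨k, hk⟩ := k
    refine ⟨?_, ?_⟩
    · simp only [uball, Set.mem_ofPred_eq, mul_pow] at *
      rw [← Finset.mul_sum, inv_pow, inv_mul_le_iff₀ (by positivity), mul_one]
      exact hk
    · refine ⟨fun i => ((k i : ℤ) : ℝ), ?_, ?_⟩
      · rw [SetLike.mem_coe, Module.Basis.mem_span_iff_repr_mem]
        intro i
        simp
      · ext i
        simp
  · intro a b hab
    obtain ⟨a, ha⟩ := a
    obtain ⟨b, hb⟩ := b
    simp only [Subtype.mk.injEq] at hab ⊢
    ext i
    have := congrFun hab i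
    simp only [mul_eq_mul_left_iff, Int.cast_inj, inv_eq_zero] at this
    rcases this with h | h
    · exact h
    · exact absurd h hr.ne'
  · rintro ⟨x, hx1, hx2⟩
    rw [Set.mem_smul_set_iff_inv_smul_mem₀ (inv_ne_zero hr.ne'), inv_inv] at hx2
    rw [SetLike.mem_coe, Module.Basis.mem_span_iff_repr_mem] at hx2
    simp only [Pi.basisFun_repr, Pi.smul_apply, smul_eq_mul] at hx2
    choose k hk using hx2
    refine ⟨⟨k, ?_⟩, ?_⟩
    · simp only [Set.mem_ofPred_eq, uball] at *
      have hk' : ∀ i, (k i : ℝ) = r * x i := by simpa using hk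
      simp only [hk', mul_pow]
      rw [← Finset.mul_sum]
      nlinarith [sq_nonneg r]
    · refine Subtype.ext (funext fun i => ?_)
      have hk' : ∀ i, (k i : ℝ) = r * x i := by simpa using hk
      show r⁻¹ * ((k i : ℤ) : ℝ) = x i
      rw [hk' i]
      field_simp

end Vale.Agent.P171
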