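import Mathlib

set_option autoImplicit false
set_option linter.unusedSectionVars false

open MeasureTheory Set
open scoped ENNReal BigOperators

namespace Vale.Agent.P171

section Config

variable {E : Type} [MeasureSpace E]

open scoped Classical in
/-- half the sum over ordered pairs of distinct indices -/
noncomputable def V (u : E → E → ℝ) {ι : Type} [Fintype ι] (x : ι → E) : ℝ :=
  (1 / 2) * ∑ i, ∑ j, if i = j then 0 else u (x i) (x j)

/-- finite labelled configurations -/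
abbrev Conf (E : Type) : Type := Σ N : ℕ, (Fin N → E)

def mk (N : ℕ) (x : Fin N → E) : Conf E := ⟨N, x⟩

noncomputable def cm (E : Type) [MeasureSpace E] : Measure (Conf E) :=
  Measure.sum (fun N : ℕ => ((N.factorial : ℝ≥0∞))⁻¹ •
    Measure.map (mk N) (volume : Measure (Fin N → E)))

lemma measurable_mk (N : ℕ) : Measurable (mk N : (Fin N → E) → Conf E) := by
  intro s hs
  have := (MeasurableSpace.measurableSet_iInf.1 hs) N
  exact this

lemma measurable_of_mk {β : Type*} [MeasurableSpace β] {F : Conf E → β}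
    (h : ∀ N, Measurable (fun x : Fin N → E => F (mk N x))) : Measurable F := by
  intro s hs
  refine MeasurableSpace.measurableSet_iInf.2 fun N => ?_
  exact h N hs

lemma lintegral_cm {F : Conf E → ℝ≥0∞} (hF : Measurable F) :
    ∫⁻ ω, F ω ∂(cm E) =
      ∑' N : ℕ, ((N.factorial : ℝ≥0∞))⁻¹ * ∫⁻ x : Fin N → E, F (mk N x) := by
  unfold cm
  rw [lintegral_sum_measure]
  congr 1
  funext N
  rw [lintegral_smul_measure, lintegral_map hF (measurable_mk N)]
  rfl

def ins (Λ : Set E) : Set (Conf E) := {ω | ∀ i, ω.2 i ∈ Λ}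

lemma measurableSet_ins {Λ : Set E} (hΛ : MeasurableSet Λ) : MeasurableSet (ins Λ) := by
  refine MeasurableSpace.measurableSet_iInf.2 fun N => ?_
  have h1 : ((mk N : (Fin N → E) → Conf E) ⁻¹' (ins Λ)) = ⋂ i, (fun x => x i) ⁻¹' Λ := by
    ext x; simp [ins, mk]
  show MeasurableSet ((mk N : (Fin N → E) → Conf E) ⁻¹' (ins Λ))
  rw [h1]
  exact MeasurableSet.iInter fun i => (measurable_pi_apply i) hΛ

noncomputable def Xi (Λ : Set E) (h : Conf E → ℝ) : ℝ≥0∞ :=
  ∫⁻ ω in ins Λ, ENNReal.ofReal (Real.exp (h ω)) ∂(cm E)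

noncomputable def ham (u : E → E → ℝ) (μ : ℝ) : Conf E → ℝ := fun ω => V u ω.2 + μ * ω.1

/-- the N-particle integral, for a general finite index type -/
noncomputable def J (Λ : Set E) (u : E → E → ℝ) (μ : ℝ) (ι : Type) [Fintype ι] : ℝ≥0∞ :=
  ∫⁻ x : ι → E, (∏ i, Λ.indicator (1 : E → ℝ≥0∞) (x i)) *
    ENNReal.ofReal (Real.exp (V u x + μ * Fintype.card ι))

lemma V_reindex (u : E → E → ℝ) {ι ι' : Type} [Fintype ι] [Fintype ι'] (e : ι' ≃ ι) (x : ι → E) :
    V u (fun i => x (e i)) = V u x := by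
  classical
  unfold V
  congr 1
  rw [← Equiv.sum_comp e (fun i => ∑ j, if i = j then 0 else u (x i) (x j))]
  refine Finset.sum_congr rfl fun i _ => ?_
  rw [← Equiv.sum_comp e (fun j => if e i = j then 0 else u (x (e i)) (x j))]
  refine Finset.sum_congr rfl fun j _ => ?_
  by_cases h : i = j
  · simp [h]
  · simp [h]

lemma measurable_V {u : E → E → ℝ} (hu : Measurable (fun p : E × E => u p.1 p.2))
    {ι : Type} [Fintype ι] :
    Measurable (fun x : ι → E => V u x) := by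
  classical
  unfold V
  refine Measurable.const_mul ?_ _
  refine Finset.measurable_sum _ fun i _ => Finset.measurable_sum _ fun j _ => ?_
  by_cases h : i = j
  · simp [h]
  · simp only [h, if_false]
    have h2 : Measurable (fun x : ι → E => (x i, x j)) :=
      (measurable_pi_apply i).prodMk (measurable_pi_apply j)
    exact hu.comp h2

lemma measurable_ham {u : E → E → ℝ} (hu : Measurable (fun p : E × E => u p.1 p.2)) (μ : ℝ) :
    Measurable (ham u μ) := by
  refine measurable_of_mk fun N => ?_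
  exact (measurable_V (ι := Fin N) hu).add_const (μ * (N : ℝ))

lemma measurable_indprod {Λ : Set E} (hΛ : MeasurableSet Λ) (ι : Type) [Fintype ι] :
    Measurable (fun x : ι → E => ∏ i, Λ.indicator (1 : E → ℝ≥0∞) (x i)) := by
  refine Finset.measurable_prod _ fun i _ => ?_
  exact (measurable_one.indicator hΛ).comp (measurable_pi_apply i)

lemma measurable_Jint {Λ : Set E} (hΛ : MeasurableSet Λ) {u : E → E → ℝ}
    (hu : Measurable (fun p : E × E => u p.1 p.2)) (μ : ℝ) (ι : Type) [Fintype ι] :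
    Measurable (fun x : ι → E => (∏ i, Λ.indicator (1 : E → ℝ≥0∞) (x i)) *
    ENNReal.ofReal (Real.exp (V u x + μ * Fintype.card ι))) :=
  (measurable_indprod hΛ ι).mul
      (ENNReal.measurable_ofReal.comp (Real.measurable_exp.comp ((measurable_V hu).add_const _)))

lemma indprod_eq (Λ : Set E) {ι : Type} [Fintype ι] (x : ι → E) :
    (∏ i, Λ.indicator (1 : E → ℝ≥0∞) (x i)) = ({y : ι → E | ∀ i, y i ∈ Λ}).indicator 1 x := by
  classical
  by_cases h : ∀ i, x i ∈ Λ
  · rw [Set.indicator_of_mem (by exact h)]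
    rw [Finset.prod_eq_one]
    · rfl
    · intro i _
      rw [Set.indicator_of_mem (h i)]; rfl
  · rw [Set.indicator_of_notMem (by exact h)]
    obtain ⟨i, hi⟩ := not_forall.1 h
    exact Finset.prod_eq_zero (Finset.mem_univ i) (Set.indicator_of_notMem hi _)

variable [SigmaFinite (volume : Measure E)]

lemma J_reindex {Λ : Set E} (hΛ : MeasurableSet Λ) {u : E → E → ℝ}
    (hu : Measurable (fun p : E × E => u p.1 p.2)) (μ : ℝ)
    {ι ι' : Type} [Fintype ι] [Fintype ι'] (e : ι' ≃ ι) :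
    J Λ u μ ι' = J Λ u μ ι := by
  unfold J
  have hmp := volume_measurePreserving_piCongrLeft (fun _ : ι => E) e
  have hm := measurable_Jint hΛ hu μ ι
  rw [← hmp.lintegral_comp hm]
  refine lintegral_congr fun x => ?_
  have hx : ∀ i', (MeasurableEquiv.piCongrLeft (fun _ : ι => E) e) x (e i') = x i' := by
    intro i'
    exact Equiv.piCongrLeft_apply_apply (fun _ : ι => E) e x i'
  congr 1
  · rw [← Equiv.prod_comp e]
    refine Finset.prod_congr rfl fun i _ => ?_
    rw [hx]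
  · rw [← V_reindex u e]
    simp only [hx]
    rw [Fintype.card_congr e]

lemma Xi_eq {Λ : Set E} (hΛ : MeasurableSet Λ) {u : E → E → ℝ}
    (hu : Measurable (fun p : E × E => u p.1 p.2)) (μ : ℝ) :
    Xi Λ (ham u μ) = ∑' N : ℕ, ((N.factorial : ℝ≥0∞))⁻¹ * J Λ u μ (Fin N) := by
  unfold Xi
  rw [← lintegral_indicator (measurableSet_ins hΛ)]
  rw [lintegral_cm]
  · congr 1
    funext N
    congr 1
    unfold J
    refine lintegral_congr fun x => ?_
    rw [indprod_eq]
    by_cases h : ∀ i, x i ∈ Λ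
    · rw [Set.indicator_of_mem (by exact h), Set.indicator_of_mem (by exact h)]
      rw [Pi.one_apply, one_mul, Fintype.card_fin]
      rfl
    · rw [Set.indicator_of_notMem (by exact h), Set.indicator_of_notMem (by exact h)]
      simp
  · exact (ENNReal.measurable_ofReal.comp (Real.measurable_exp.comp (measurable_ham hu μ))).indicator
      (measurableSet_ins hΛ)

/-- splitting of the pair energy when the cross interaction vanishes -/
lemma V_split {u : E → E → ℝ} {ι : Type} [Fintype ι] (x : ι → E) (p : ι → Prop) [DecidablePred p]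
    (h1 : ∀ i j, p i → ¬ p j → u (x i) (x j) = 0) (h2 : ∀ i j, ¬ p i → p j → u (x i) (x j) = 0) :
    V u x = V u (fun i : {i // p i} => x i) + V u (fun i : {i // ¬ p i} => x i) := by
  classical
  unfold V
  rw [← mul_add]
  congr 1
  rw [← Fintype.sum_subtype_add_sum_subtype p]
  congr 1
  · refine Finset.sum_congr rfl fun i _ => ?_
    rw [← Fintype.sum_subtype_add_sum_subtype p]
    have : ∑ j : {j // ¬ p j}, (if (i : ι) = j then 0 else u (x i) (x j)) = 0 := by
      refine Finset.sum_eq_zero fun j _ => ?_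
      rw [h1 i j i.2 j.2]; simp
    rw [this, add_zero]
    refine Finset.sum_congr rfl fun j _ => ?_
    by_cases hij : i = j
    · simp [hij]
    · have : (i : ι) ≠ j := fun h => hij (Subtype.ext h)
      simp [hij, this]
  · refine Finset.sum_congr rfl fun i _ => ?_
    rw [← Fintype.sum_subtype_add_sum_subtype p]
    have : ∑ j : {j // p j}, (if (i : ι) = j then 0 else u (x i) (x j)) = 0 := by
      refine Finset.sum_eq_zero fun j _ => ?_
      rw [h2 i j i.2 j.2]; simp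
    rw [this, zero_add]
    refine Finset.sum_congr rfl fun j _ => ?_
    by_cases hij : i = j
    · simp [hij]
    · have : (i : ι) ≠ j := fun h => hij (Subtype.ext h)
      simp [hij, this]

lemma J_piece {Λ₁ Λ₂ : Set E} (h₁ : MeasurableSet Λ₁) (h₂ : MeasurableSet Λ₂)
    {u : E → E → ℝ} (hu : Measurable (fun p : E × E => u p.1 p.2)) (μ : ℝ)
    (hu1 : ∀ x ∈ Λ₁, ∀ y ∈ Λ₂, u x y = 0) (hu2 : ∀ x ∈ Λ₂, ∀ y ∈ Λ₁, u x y = 0)
    {ι : Type} [Fintype ι] (p : ι → Prop) [DecidablePred p] :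
    ∫⁻ x : ι → E, ((∏ i : {i // p i}, Λ₁.indicator (1 : E → ℝ≥0∞) (x i)) *
      (∏ i : {i // ¬ p i}, Λ₂.indicator (1 : E → ℝ≥0∞) (x i))) *
      ENNReal.ofReal (Real.exp (V u x + μ * Fintype.card ι)) =
      J Λ₁ u μ {i // p i} * J Λ₂ u μ {i // ¬ p i} := by
  have hmp := volume_preserving_piEquivPiSubtypeProd (fun _ : ι => E) p
  have key : ∀ x : ι → E, ((∏ i : {i // p i}, Λ₁.indicator (1 : E → ℝ≥0∞) (x i)) *
      (∏ i : {i // ¬ p i}, Λ₂.indicator (1 : E → ℝ≥0∞) (x i))) *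
      ENNReal.ofReal (Real.exp (V u x + μ * Fintype.card ι)) =
      (fun y : ({i // p i} → E) × ({i // ¬ p i} → E) =>
        ((∏ i, Λ₁.indicator (1 : E → ℝ≥0∞) (y.1 i)) *
          ENNReal.ofReal (Real.exp (V u y.1 + μ * Fintype.card {i // p i}))) *
        ((∏ i, Λ₂.indicator (1 : E → ℝ≥0∞) (y.2 i)) *
          ENNReal.ofReal (Real.exp (V u y.2 + μ * Fintype.card {i // ¬ p i}))))
        ((MeasurableEquiv.piEquivPiSubtypeProd (fun _ : ι => E) p) x) := by
    intro x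
    have e1 : ((MeasurableEquiv.piEquivPiSubtypeProd (fun _ : ι => E) p) x) =
      ((fun i : {i // p i} => x i), (fun i : {i // ¬ p i} => x i)) := rfl
    rw [e1]
    simp only
    rw [indprod_eq Λ₁ (fun i : {i // p i} => x i), indprod_eq Λ₂ (fun i : {i // ¬ p i} => x i)]
    by_cases hA : ∀ i : {i // p i}, x i ∈ Λ₁
    · by_cases hB : ∀ i : {i // ¬ p i}, x i ∈ Λ₂
      · rw [Set.indicator_of_mem (by exact hA), Set.indicator_of_mem (by exact hB)]
        simp only [Pi.one_apply, one_mul]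
        rw [← ENNReal.ofReal_mul (Real.exp_pos _).le, ← Real.exp_add]
        have hs := V_split (u := u) x p (fun i j hi hj => hu1 _ (hA ⟨i, hi⟩) _ (hB ⟨j, hj⟩))
          (fun i j hi hj => hu2 _ (hB ⟨i, hi⟩) _ (hA ⟨j, hj⟩))
        have hc : (Fintype.card ι : ℝ) = Fintype.card {i // p i} + Fintype.card {i // ¬ p i} := by
          rw [← Fintype.card_congr (Equiv.sumCompl p), Fintype.card_sum]
          push_cast
          ring
        rw [hs, hc]
        congr 2
        ring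
      · rw [Set.indicator_of_notMem (s := {y : {i // ¬ p i} → E | ∀ i, y i ∈ Λ₂}) (by exact hB)]
        simp
    · rw [Set.indicator_of_notMem (s := {y : {i // p i} → E | ∀ i, y i ∈ Λ₁}) (by exact hA)]
      simp
  rw [lintegral_congr key]
  have m1 := measurable_Jint h₁ hu μ {i // p i}
  have m2 := measurable_Jint h₂ hu μ {i // ¬ p i}
  have hG : Measurable (fun y : ({i // p i} → E) × ({i // ¬ p i} → E) =>
        ((∏ i, Λ₁.indicator (1 : E → ℝ≥0∞) (y.1 i)) *
          ENNReal.ofReal (Real.exp (V u y.1 + μ * Fintype.card {i // p i}))) *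
        ((∏ i, Λ₂.indicator (1 : E → ℝ≥0∞) (y.2 i)) *
          ENNReal.ofReal (Real.exp (V u y.2 + μ * Fintype.card {i // ¬ p i})))) :=
    (m1.comp measurable_fst).mul (m2.comp measurable_snd)
  have h3 := hmp.lintegral_comp hG
  refine h3.trans ?_
  rw [Measure.volume_eq_prod]
  exact lintegral_prod_mul m1.aemeasurable m2.aemeasurable

lemma J_piece' {Λ₁ Λ₂ : Set E} (h₁ : MeasurableSet Λ₁) (h₂ : MeasurableSet Λ₂)
    {u : E → E → ℝ} (hu : Measurable (fun p : E × E => u p.1 p.2)) (μ : ℝ)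
    (hu1 : ∀ x ∈ Λ₁, ∀ y ∈ Λ₂, u x y = 0) (hu2 : ∀ x ∈ Λ₂, ∀ y ∈ Λ₁, u x y = 0)
    {ι : Type} [Fintype ι] [DecidableEq ι] (S : Finset ι) (n : ℕ) (hn : Fintype.card ι = n) :
    ∫⁻ x : ι → E, ((∏ i ∈ S, Λ₁.indicator (1 : E → ℝ≥0∞) (x i)) *
      (∏ i ∈ Finset.univ \ S, Λ₂.indicator (1 : E → ℝ≥0∞) (x i))) *
      ENNReal.ofReal (Real.exp (V u x + μ * Fintype.card ι)) =
      J Λ₁ u μ (Fin S.card) * J Λ₂ u μ (Fin (n - S.card)) := by
  subst hn
  have h := J_piece h₁ h₂ hu μ hu1 hu2 (fun i => i ∈ S)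
  have c1 : Fintype.card {i // i ∈ S} = S.card := Fintype.card_coe S
  have c2 : Fintype.card {i // ¬ (i ∈ S)} = Fintype.card ι - S.card := by
    rw [Fintype.card_subtype_compl, Fintype.card_coe]
  rw [← J_reindex h₁ hu μ (Fintype.equivFinOfCardEq c1),
    ← J_reindex h₂ hu μ (Fintype.equivFinOfCardEq c2)]
  refine Eq.trans (lintegral_congr fun x => ?_) (h.trans ?_)
  · congr 1
    congr 1
    · exact Finset.prod_subtype S (fun i => Iff.rfl) (fun i => Λ₁.indicator (1 : E → ℝ≥0∞) (x i))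
    · exact Finset.prod_subtype (Finset.univ \ S) (by simp) (fun i => Λ₂.indicator (1 : E → ℝ≥0∞) (x i))
  · congr 1
    congr 1
    exact Subsingleton.elim _ _

lemma J_union {Λ₁ Λ₂ : Set E} (h₁ : MeasurableSet Λ₁) (h₂ : MeasurableSet Λ₂)
    (hd : Disjoint Λ₁ Λ₂)
    {u : E → E → ℝ} (hu : Measurable (fun p : E × E => u p.1 p.2)) (μ : ℝ)
    (hu1 : ∀ x ∈ Λ₁, ∀ y ∈ Λ₂, u x y = 0) (hu2 : ∀ x ∈ Λ₂, ∀ y ∈ Λ₁, u x y = 0)
    (N : ℕ) :
    J (Λ₁ ∪ Λ₂) u μ (Fin N) =
      ∑ k ∈ Finset.range (N + 1), (N.choose k) • (J Λ₁ u μ (Fin k) * J Λ₂ u μ (Fin (N - k))) := by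
  classical
  have h0 : J (Λ₁ ∪ Λ₂) u μ (Fin N) = ∫⁻ x : Fin N → E, ∑ S ∈ (Finset.univ : Finset (Fin N)).powerset,
      ((∏ i ∈ S, Λ₁.indicator (1 : E → ℝ≥0∞) (x i)) *
      (∏ i ∈ Finset.univ \ S, Λ₂.indicator (1 : E → ℝ≥0∞) (x i))) *
      ENNReal.ofReal (Real.exp (V u x + μ * Fintype.card (Fin N))) := by
    unfold J
    refine lintegral_congr fun x => ?_
    rw [← Finset.sum_mul]
    congr 1
    rw [Set.indicator_union_of_disjoint hd]
    rw [Finset.prod_add]
  rw [h0, lintegral_finsetSum]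
  · rw [Finset.sum_congr rfl (fun S _ => J_piece' h₁ h₂ hu μ hu1 hu2 S N (Fintype.card_fin N))]
    rw [Finset.sum_powerset_apply_card
      (fun k => J Λ₁ u μ (Fin k) * J Λ₂ u μ (Fin (N - k)))]
    simp
  · intro S _
    refine Measurable.mul (Measurable.mul ?_ ?_) ?_
    · refine Finset.measurable_prod _ fun i _ => ?_
      exact (measurable_one.indicator h₁).comp (measurable_pi_apply _)
    · refine Finset.measurable_prod _ fun i _ => ?_
      exact (measurable_one.indicator h₂).comp (measurable_pi_apply _)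
    · exact (ENNReal.measurable_ofReal.comp (Real.measurable_exp.comp ((measurable_V hu).add_const _)))

lemma ennreal_cauchy (f g : ℕ → ℝ≥0∞) :
    (∑' k, f k) * (∑' l, g l) = ∑' N, ∑ kl ∈ Finset.HasAntidiagonal.antidiagonal N, f kl.1 * g kl.2 := by
  rw [← ENNReal.tsum_mul_right]
  simp_rw [← ENNReal.tsum_mul_left]
  rw [← ENNReal.tsum_prod (f := fun k l => f k * g l)]
  rw [← Finset.HasAntidiagonal.sigmaAntidiagonalEquivProd.tsum_eq
    (fun p : ℕ × ℕ => f p.1 * g p.2)]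
  rw [ENNReal.tsum_sigma']
  congr 1
  funext N
  rw [tsum_fintype]
  exact Finset.sum_coe_sort (Finset.HasAntidiagonal.antidiagonal N) (fun kl => f kl.1 * g kl.2)

lemma inv_fact_choose {N k : ℕ} (hk : k ≤ N) :
    ((N.factorial : ℝ≥0∞))⁻¹ * (N.choose k : ℝ≥0∞) =
      ((k.factorial : ℝ≥0∞))⁻¹ * (((N - k).factorial : ℝ≥0∞))⁻¹ := by
  have h := Nat.choose_mul_factorial_mul_factorial hk
  have hc : (N.choose k : ℝ≥0∞) ≠ 0 := by
    have := Nat.choose_pos hk
    exact_mod_cast this.ne'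
  have hk0 : (k.factorial : ℝ≥0∞) ≠ 0 := by exact_mod_cast Nat.factorial_ne_zero k
  have hl0 : ((N - k).factorial : ℝ≥0∞) ≠ 0 := by exact_mod_cast Nat.factorial_ne_zero (N - k)
  have hN : (N.factorial : ℝ≥0∞) = (N.choose k : ℝ≥0∞) * (k.factorial : ℝ≥0∞) * ((N - k).factorial : ℝ≥0∞) := by
    rw [← h]; push_cast; ring
  rw [hN, ENNReal.mul_inv (Or.inr (ENNReal.natCast_ne_top _)) (Or.inr hl0),
    ENNReal.mul_inv (Or.inr (ENNReal.natCast_ne_top _)) (Or.inr hk0)]
  have : (N.choose k : ℝ≥0∞)⁻¹ * (k.factorial : ℝ≥0∞)⁻¹ * ((N - k).factorial : ℝ≥0∞)⁻¹ * (N.choose k : ℝ≥0∞)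
    = ((N.choose k : ℝ≥0∞)⁻¹ * (N.choose k : ℝ≥0∞)) * ((k.factorial : ℝ≥0∞)⁻¹ * ((N - k).factorial : ℝ≥0∞)⁻¹) := by
    ring
  rw [this, ENNReal.inv_mul_cancel hc (ENNReal.natCast_ne_top _), one_mul]

/-- factorization over two non-interacting regions -/
theorem Xi_union {Λ₁ Λ₂ : Set E} (h₁ : MeasurableSet Λ₁) (h₂ : MeasurableSet Λ₂)
    (hd : Disjoint Λ₁ Λ₂)
    {u : E → E → ℝ} (hu : Measurable (fun p : E × E => u p.1 p.2)) (μ : ℝ)
    (hu1 : ∀ x ∈ Λ₁, ∀ y ∈ Λ₂, u x y = 0) (hu2 : ∀ x ∈ Λ₂, ∀ y ∈ Λ₁, u x y = 0) :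
    Xi (Λ₁ ∪ Λ₂) (ham u μ) = Xi Λ₁ (ham u μ) * Xi Λ₂ (ham u μ) := by
  rw [Xi_eq (h₁.union h₂) hu, Xi_eq h₁ hu, Xi_eq h₂ hu, ennreal_cauchy]
  congr 1
  funext N
  rw [J_union h₁ h₂ hd hu μ hu1 hu2, Finset.Nat.sum_antidiagonal_eq_sum_range_succ
    (fun k l => ((k.factorial : ℝ≥0∞))⁻¹ * J Λ₁ u μ (Fin k) * (((l.factorial : ℝ≥0∞))⁻¹ * J Λ₂ u μ (Fin l)))]
  rw [Finset.mul_sum]
  refine Finset.sum_congr rfl fun k hk => ?_
  have hk' : k ≤ N := Nat.lt_succ_iff.1 (Finset.mem_range.1 hk)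
  rw [nsmul_eq_mul, ← mul_assoc, inv_fact_choose hk']
  ring

end Config

end Vale.Agent.P171
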