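import Mathlib
import Vale.Agent.P171.Config

set_option autoImplicit false
set_option linter.unusedSectionVars false

open MeasureTheory Set
open scoped ENNReal BigOperators

namespace Vale.Agent.P171

section Basics

variable {E : Type} [MeasureSpace E]

lemma Xi_mono {Λ Λ' : Set E} (hΛ : Λ ⊆ Λ') (hm : MeasurableSet Λ) {h h' : Conf E → ℝ}
    (hh : ∀ ω ∈ ins Λ, h ω ≤ h' ω) : Xi Λ h ≤ Xi Λ' h' := by
  unfold Xi
  have h1 : ins Λ ⊆ ins Λ' := fun ω hω i => hΛ (hω i)
  refine le_trans ?_ (lintegral_mono_set h1)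
  refine setLIntegral_mono' (measurableSet_ins hm) fun ω hω => ?_
  exact ENNReal.ofReal_le_ofReal (Real.exp_le_exp.2 (hh ω hω))

lemma Xi_holder {κ : Type} (s : Finset κ) {Λ : Set E} (h : κ → Conf E → ℝ)
    (hm : ∀ i ∈ s, Measurable (h i)) (p : κ → ℝ) (hp0 : ∀ i ∈ s, 0 ≤ p i)
    (hp : ∑ i ∈ s, p i = 1) :
    Xi Λ (fun ω => ∑ i ∈ s, p i * h i ω) ≤ ∏ i ∈ s, (Xi Λ (h i)) ^ (p i) := by
  have h1 := ENNReal.lintegral_prod_norm_pow_le (μ := (cm E).restrict (ins Λ)) s
    (f := fun i ω => ENNReal.ofReal (Real.exp (h i ω)))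
    (fun i hi => (ENNReal.measurable_ofReal.comp (Real.measurable_exp.comp (hm i hi))).aemeasurable)
    hp hp0
  refine le_trans (le_of_eq ?_) h1
  unfold Xi
  refine lintegral_congr fun ω => ?_
  rw [Real.exp_sum, ENNReal.ofReal_prod_of_nonneg (fun i _ => (Real.exp_pos _).le)]
  refine Finset.prod_congr rfl fun i _ => ?_
  rw [ENNReal.ofReal_rpow_of_pos (Real.exp_pos _), ← Real.exp_mul, mul_comm]

lemma Xi_interp {Λ : Set E} {h₁ h₂ : Conf E → ℝ} (hm₁ : Measurable h₁) (hm₂ : Measurable h₂)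
    {θ : ℝ} (h0 : 0 ≤ θ) (h1 : θ ≤ 1) :
    Xi Λ (fun ω => (1 - θ) * h₁ ω + θ * h₂ ω) ≤ (Xi Λ h₁) ^ (1 - θ) * (Xi Λ h₂) ^ θ := by
  have := Xi_holder (Finset.univ : Finset Bool) (Λ := Λ) (fun b => if b then h₂ else h₁)
    (fun b _ => by by_cases hb : b <;> simp [hb, hm₁, hm₂]) (fun b => if b then θ else 1 - θ)
    (fun b _ => by by_cases hb : b <;> simp [hb, h0, h1]) (by simp)
  simp only [Fintype.sum_bool, Fintype.prod_bool, if_true] at this
  rw [mul_comm] at this
  refine le_trans (le_of_eq ?_) this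
  congr 1
  funext ω
  simp
  ring

lemma V_add (u v : E → E → ℝ) {ι : Type} [Fintype ι] (x : ι → E) :
    V (fun a b => u a b + v a b) x = V u x + V v x := by
  classical
  unfold V
  rw [← mul_add, ← Finset.sum_add_distrib]
  congr 1
  refine Finset.sum_congr rfl fun i _ => ?_
  rw [← Finset.sum_add_distrib]
  refine Finset.sum_congr rfl fun j _ => ?_
  by_cases h : i = j <;> simp [h]

lemma V_smul (c : ℝ) (u : E → E → ℝ) {ι : Type} [Fintype ι] (x : ι → E) :
    V (fun a b => c * u a b) x = c * V u x := by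
  classical
  have : ∀ i j, (if i = j then (0:ℝ) else c * u (x i) (x j)) =
      c * (if i = j then 0 else u (x i) (x j)) := by
    intro i j; split_ifs <;> simp
  unfold V
  simp only [this, ← Finset.mul_sum]
  ring

lemma V_sum {κ : Type} (s : Finset κ) (u : κ → E → E → ℝ) {ι : Type} [Fintype ι] (x : ι → E) :
    V (fun a b => ∑ k ∈ s, u k a b) x = ∑ k ∈ s, V (u k) x := by
  classical
  induction s using Finset.induction_on with
  | empty => simp [V]
  | insert a s ha ih =>
    rw [Finset.sum_insert ha, ← ih, ← V_add]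
    congr 1
    funext a' b'
    rw [Finset.sum_insert ha]

lemma V_mono {u v : E → E → ℝ} {ι : Type} [Fintype ι] (x : ι → E)
    (h : ∀ i j, i ≠ j → u (x i) (x j) ≤ v (x i) (x j)) :
    V u x ≤ V v x := by
  classical
  unfold V
  refine mul_le_mul_of_nonneg_left ?_ (by norm_num)
  refine Finset.sum_le_sum fun i _ => Finset.sum_le_sum fun j _ => ?_
  by_cases hij : i = j
  · simp [hij]
  · simp [hij]; exact h i j hij

lemma V_congr {u v : E → E → ℝ} {ι : Type} [Fintype ι] (x : ι → E)
    (h : ∀ i j, i ≠ j → u (x i) (x j) = v (x i) (x j)) :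
    V u x = V v x :=
  le_antisymm (V_mono x fun i j hij => (h i j hij).le) (V_mono x fun i j hij => (h i j hij).ge)

lemma V_zero {ι : Type} [Fintype ι] (x : ι → E) : V (fun _ _ => (0 : ℝ)) x = 0 := by
  classical
  unfold V
  simp

lemma V_nonneg {u : E → E → ℝ} {ι : Type} [Fintype ι] (x : ι → E)
    (h : ∀ i j, i ≠ j → 0 ≤ u (x i) (x j)) : 0 ≤ V u x := by
  rw [← V_zero x]
  exact V_mono x h

lemma one_le_Xi {Λ : Set E} (hΛ : MeasurableSet Λ) [SigmaFinite (volume : Measure E)]
    {u : E → E → ℝ} (hu : Measurable (fun p : E × E => u p.1 p.2)) (μ : ℝ) :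
    1 ≤ Xi Λ (ham u μ) := by
  rw [Xi_eq hΛ hu]
  refine le_trans ?_ (ENNReal.le_tsum 0)
  unfold J
  have h1 : ∀ x : Fin 0 → E, (∏ i, Λ.indicator (1 : E → ℝ≥0∞) (x i)) *
    ENNReal.ofReal (Real.exp (V u x + μ * Fintype.card (Fin 0))) = 1 := by
    intro x
    simp [V]
  rw [lintegral_congr h1]
  simp [volume_pi]

end Basics

section Fact

variable {E : Type} [MeasureSpace E] [SigmaFinite (volume : Measure E)]

lemma Xi_empty {u : E → E → ℝ} (hu : Measurable (fun p : E × E => u p.1 p.2)) (μ : ℝ) :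
    Xi (∅ : Set E) (ham u μ) = 1 := by
  rw [Xi_eq MeasurableSet.empty hu]
  rw [tsum_eq_single 0]
  · unfold J
    have h1 : ∀ x : Fin 0 → E, (∏ i, (∅ : Set E).indicator (1 : E → ℝ≥0∞) (x i)) *
      ENNReal.ofReal (Real.exp (V u x + μ * Fintype.card (Fin 0))) = 1 := by
      intro x
      simp [V]
    rw [lintegral_congr h1]
    simp [volume_pi]
  · intro N hN
    unfold J
    have h1 : ∀ x : Fin N → E, (∏ i, (∅ : Set E).indicator (1 : E → ℝ≥0∞) (x i)) *
      ENNReal.ofReal (Real.exp (V u x + μ * Fintype.card (Fin N))) = 0 := by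
      intro x
      rw [Finset.prod_eq_zero (Finset.mem_univ (⟨0, Nat.pos_of_ne_zero hN⟩ : Fin N))]
      · simp
      · simp
    rw [lintegral_congr h1]
    simp

theorem Xi_biUnion {κ : Type} (T : Finset κ) (D : κ → Set E)
    (hD : ∀ t, MeasurableSet (D t)) (hdisj : ∀ s ∈ T, ∀ t ∈ T, s ≠ t → Disjoint (D s) (D t))
    {u : E → E → ℝ} (hu : Measurable (fun p : E × E => u p.1 p.2)) (μ : ℝ)
    (hcross : ∀ s ∈ T, ∀ t ∈ T, s ≠ t → ∀ x ∈ D s, ∀ y ∈ D t, u x y = 0) :
    Xi (⋃ t ∈ T, D t) (ham u μ) = ∏ t ∈ T, Xi (D t) (ham u μ) := by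
  classical
  induction T using Finset.induction_on with
  | empty => simp [Xi_empty hu μ]
  | insert a T ha ih =>
    rw [Finset.prod_insert ha, Finset.set_biUnion_insert]
    rw [Xi_union (hD a) (Finset.measurableSet_biUnion T fun t _ => hD t) ?_ hu μ ?_ ?_]
    · rw [ih]
      · intro s hs t ht hst
        exact hdisj s (Finset.mem_insert_of_mem hs) t (Finset.mem_insert_of_mem ht) hst
      · intro s hs t ht hst
        exact hcross s (Finset.mem_insert_of_mem hs) t (Finset.mem_insert_of_mem ht) hst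
    · rw [Set.disjoint_iUnion₂_right]
      intro t ht
      refine hdisj a (Finset.mem_insert_self a T) t (Finset.mem_insert_of_mem ht) ?_
      rintro rfl; exact ha ht
    · intro x hx y hy
      rw [Set.mem_iUnion₂] at hy
      obtain ⟨t, ht, hy⟩ := hy
      refine hcross a (Finset.mem_insert_self a T) t (Finset.mem_insert_of_mem ht) ?_ x hx y hy
      rintro rfl; exact ha ht
    · intro x hx y hy
      rw [Set.mem_iUnion₂] at hx
      obtain ⟨t, ht, hx⟩ := hx
      refine hcross t (Finset.mem_insert_of_mem ht) a (Finset.mem_insert_self a T) ?_ x hx y hy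
      rintro rfl; exact ha ht

theorem Xi_preimage {Λ : Set E} (hΛ : MeasurableSet Λ) (τ : E → E)
    (hτ : MeasurePreserving τ volume volume)
    {u : E → E → ℝ} (hu : Measurable (fun p : E × E => u p.1 p.2)) (μ : ℝ)
    (hinv : ∀ x y, u (τ x) (τ y) = u x y) :
    Xi (τ ⁻¹' Λ) (ham u μ) = Xi Λ (ham u μ) := by
  rw [Xi_eq (hτ.measurable hΛ) hu, Xi_eq hΛ hu]
  congr 1
  funext N
  congr 1
  unfold J
  have hmp : MeasurePreserving (fun (x : Fin N → E) i => τ (x i)) volume volume :=
    volume_preserving_pi (fun _ => hτ)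
  rw [← hmp.lintegral_comp (measurable_Jint hΛ hu μ (Fin N))]
  refine lintegral_congr fun x => ?_
  congr 1
  have : V u (fun i => τ (x i)) = V u x := by
    unfold V
    congr 1
    refine Finset.sum_congr rfl fun i _ => Finset.sum_congr rfl fun j _ => ?_
    rw [hinv]
  rw [this]

/-- crude upper bound by an ideal gas -/
theorem Xi_le_ideal {Λ : Set E} (hΛ : MeasurableSet Λ)
    {u : E → E → ℝ} (hu : Measurable (fun p : E × E => u p.1 p.2)) (μ C v : ℝ) (hv : 0 ≤ v)
    (hvol : volume Λ ≤ ENNReal.ofReal v)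
    (h : ∀ ω ∈ ins Λ, ham u μ ω ≤ C * ω.1) :
    Xi Λ (ham u μ) ≤ ENNReal.ofReal (Real.exp (Real.exp C * v)) := by
  rw [Xi_eq hΛ hu]
  have hJ : ∀ N : ℕ, J Λ u μ (Fin N) ≤ ENNReal.ofReal (Real.exp C * v) ^ N := by
    intro N
    unfold J
    calc ∫⁻ x : Fin N → E, (∏ i, Λ.indicator (1 : E → ℝ≥0∞) (x i)) *
          ENNReal.ofReal (Real.exp (V u x + μ * Fintype.card (Fin N)))
        ≤ ∫⁻ x : Fin N → E, (∏ i, Λ.indicator (1 : E → ℝ≥0∞) (x i)) *
          ENNReal.ofReal (Real.exp (C * N)) := by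
          refine lintegral_mono fun x => ?_
          simp only
          rw [indprod_eq]
          by_cases hx : ∀ i, x i ∈ Λ
          · rw [Set.indicator_of_mem (by exact hx)]
            simp only [Pi.one_apply, one_mul]
            refine ENNReal.ofReal_le_ofReal (Real.exp_le_exp.2 ?_)
            have := h (mk N x) hx
            rw [Fintype.card_fin]
            exact this
          · rw [Set.indicator_of_notMem (by exact hx)]
            simp
      _ = (∏ _i : Fin N, volume Λ) * ENNReal.ofReal (Real.exp (C * N)) := by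
          rw [lintegral_mul_const _ (measurable_indprod hΛ (Fin N))]
          congr 1
          have e1 : ∀ x : Fin N → E, (∏ i, Λ.indicator (1 : E → ℝ≥0∞) (x i)) =
              (Set.pi Set.univ (fun _ : Fin N => Λ)).indicator 1 x := by
            intro x
            rw [indprod_eq]
            congr 1
            ext y; simp
          rw [lintegral_congr e1, lintegral_indicator_one (MeasurableSet.univ_pi fun _ => hΛ),
            volume_pi_pi]
      _ ≤ ENNReal.ofReal (Real.exp C * v) ^ N := by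
          rw [Finset.prod_const, Finset.card_univ, Fintype.card_fin]
          rw [ENNReal.ofReal_mul (Real.exp_pos C).le, mul_pow, mul_comm]
          refine mul_le_mul' ?_ (pow_le_pow_left' hvol N)
          rw [← ENNReal.ofReal_pow (Real.exp_pos C).le, ← Real.exp_nat_mul, mul_comm]
  calc ∑' N : ℕ, ((N.factorial : ℝ≥0∞))⁻¹ * J Λ u μ (Fin N)
      ≤ ∑' N : ℕ, ((N.factorial : ℝ≥0∞))⁻¹ * ENNReal.ofReal (Real.exp C * v) ^ N :=
        ENNReal.tsum_le_tsum fun N => mul_le_mul' le_rfl (hJ N)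
    _ = ENNReal.ofReal (Real.exp (Real.exp C * v)) := by
        have hx : 0 ≤ Real.exp C * v := mul_nonneg (Real.exp_pos C).le hv
        generalize Real.exp C * v = y at hx
        rw [Real.exp_eq_exp_ℝ, NormedSpace.exp_eq_tsum_div]
        simp only
        rw [ENNReal.ofReal_tsum_of_nonneg (fun n => by positivity)]
        · congr 1
          funext N
          rw [div_eq_inv_mul, ENNReal.ofReal_mul (by positivity), ENNReal.ofReal_pow hx,
            ENNReal.ofReal_inv_of_pos (by positivity), ENNReal.ofReal_natCast]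
        · exact Real.summable_pow_div_factorial y

end Fact

end Vale.Agent.P171
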