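import Mathlib
import Vale.Agent.P171.Holder

set_option autoImplicit false
set_option linter.unusedSectionVars false

open MeasureTheory Set
open scoped ENNReal BigOperators

namespace Vale.Agent.P171

section Count

variable {G : Type} [AddCommGroup G] [DecidableEq G] {ι : Type} [Fintype ι]

/-- number of ordered pairs (diagonal included) with equal labels -/
noncomputable def Sfun (f : ι → G) : ℝ := ∑ i, ∑ j, if f i = f j then (1 : ℝ) else 0

lemma count_shift (f : ι → G) (b : G) :
    ∑ i, ∑ j, (if f j = f i + b then (1 : ℝ) else 0) ≤ Sfun f := by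
  classical
  set n : G → ℝ := fun c => ∑ j, if f j = c then (1 : ℝ) else 0 with hn
  set T : Finset G := Finset.univ.image f with hT
  have hcard : ∀ c, n c = ((Finset.univ.filter (fun j => f j = c)).card : ℝ) := by
    intro c; simp [hn]
  have hsum : ∀ g : G → ℝ, ∑ i, g (f i) = ∑ c ∈ T, n c * g c := by
    intro g
    rw [Finset.sum_comp g f]
    refine Finset.sum_congr rfl fun c _ => ?_
    rw [hcard, nsmul_eq_mul]
  have hz : ∀ c, c ∉ T → n c = 0 := by
    intro c hc
    rw [hcard]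
    simp only [Nat.cast_eq_zero, Finset.card_eq_zero, Finset.filter_eq_empty_iff]
    intro j _ hj
    exact hc (Finset.mem_image.2 ⟨j, Finset.mem_univ j, hj⟩)
  have h1 : ∑ i, ∑ j, (if f j = f i + b then (1 : ℝ) else 0) = ∑ c ∈ T, n c * n (c + b) := by
    exact hsum (fun c => n (c + b))
  have h2 : Sfun f = ∑ c ∈ T, n c * n c := by
    unfold Sfun
    rw [← hsum (fun c => n c)]
    refine Finset.sum_congr rfl fun i _ => ?_
    refine Finset.sum_congr rfl fun j _ => ?_
    by_cases h : f i = f j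
    · simp [h]
    · simp [h, Ne.symm h]
  have h3 : ∑ c ∈ T, n (c + b) * n (c + b) ≤ ∑ c ∈ T, n c * n c := by
    have e1 : ∑ c ∈ T, n (c + b) * n (c + b) = ∑ c ∈ T.image (fun c => c + b), n c * n c := by
      exact (Finset.sum_image (s := T) (g := fun c => c + b) (f := fun c => n c * n c)
        (by intro x _ y _ h; simpa using h)).symm
    rw [e1]
    have e2 : ∑ c ∈ T.image (fun c => c + b), n c * n c =
        ∑ c ∈ (T.image (fun c => c + b)).filter (fun c => c ∈ T), n c * n c := by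
      rw [Finset.sum_filter]
      refine Finset.sum_congr rfl fun c _ => ?_
      by_cases hc : c ∈ T
      · simp [hc]
      · simp [hc, hz c hc]
    rw [e2]
    refine Finset.sum_le_sum_of_subset_of_nonneg ?_ (fun c _ _ => mul_self_nonneg _)
    intro c hc
    exact (Finset.mem_filter.1 hc).2
  rw [h1, h2]
  have h4 : ∑ c ∈ T, n c * n (c + b) ≤ ∑ c ∈ T, (1/2) * (n c * n c + n (c + b) * n (c + b)) := by
    refine Finset.sum_le_sum fun c _ => ?_
    nlinarith [sq_nonneg (n c - n (c + b))]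
  refine h4.trans ?_
  rw [← Finset.mul_sum, Finset.sum_add_distrib]
  linarith

lemma count_pairs (f : ι → G) (B : Finset G) (r : ι → ι → Prop) [∀ i j, Decidable (r i j)]
    (h : ∀ i j, r i j → f j - f i ∈ B) :
    ∑ i, ∑ j, (if r i j then (1 : ℝ) else 0) ≤ B.card * Sfun f := by
  classical
  calc ∑ i, ∑ j, (if r i j then (1 : ℝ) else 0)
      ≤ ∑ i, ∑ j, ∑ b ∈ B, (if f j = f i + b then (1 : ℝ) else 0) := by
        refine Finset.sum_le_sum fun i _ => Finset.sum_le_sum fun j _ => ?_
        by_cases hr : r i j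
        · simp only [hr, if_true]
          refine le_trans ?_ (Finset.single_le_sum (f := fun b => if f j = f i + b then (1 : ℝ) else 0)
            (fun b _ => by split_ifs <;> norm_num) (h i j hr))
          simp
        · simp only [hr, if_false]
          exact Finset.sum_nonneg fun b _ => by split_ifs <;> norm_num
    _ = ∑ b ∈ B, ∑ i, ∑ j, (if f j = f i + b then (1 : ℝ) else 0) := by
        rw [Finset.sum_congr rfl (fun i _ => Finset.sum_comm), Finset.sum_comm]
    _ ≤ ∑ b ∈ B, Sfun f := Finset.sum_le_sum fun b _ => count_shift f b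
    _ = B.card * Sfun f := by rw [Finset.sum_const, nsmul_eq_mul]

end Count

section Offsets

lemma offsets_step (ℓ : ℕ) (hℓ : 0 < ℓ) (c : ℤ) :
    ((Finset.range ℓ).filter (fun j : ℕ => (c - j) / (ℓ : ℤ) ≠ (c + 1 - j) / (ℓ : ℤ))).card ≤ 1 := by
  have hl : (0 : ℤ) < ℓ := by exact_mod_cast hℓ
  have key : ∀ j : ℕ, (c - j) / (ℓ : ℤ) ≠ (c + 1 - j) / (ℓ : ℤ) → (ℓ : ℤ) ∣ (c + 1 - j) := by
    intro j hj
    by_contra hnd
    apply hj
    have e1 := Int.emod_add_mul_ediv (c + 1 - j) ℓ
    have e2 := Int.emod_nonneg (c + 1 - j) hl.ne'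
    have e3 := Int.emod_lt_of_pos (c + 1 - j) hl
    have e4 : (c + 1 - j) % (ℓ : ℤ) ≠ 0 := fun h => hnd (Int.dvd_of_emod_eq_zero h)
    have e5 : 1 ≤ (c + 1 - j) % (ℓ : ℤ) := by omega
    rw [Int.ediv_eq_iff_of_pos hl]
    constructor
    · nlinarith
    · nlinarith
  rw [Finset.card_le_one]
  intro a ha b hb
  rw [Finset.mem_filter, Finset.mem_range] at ha hb
  have h1 := key a ha.2
  have h2 := key b hb.2
  have h3 : (ℓ : ℤ) ∣ (b - a : ℤ) := by
    have := dvd_sub h1 h2
    have e : (c + 1 - a - (c + 1 - b) : ℤ) = b - a := by ring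
    rwa [e] at this
  have h4 : (b - a : ℤ) = 0 := by
    apply Int.eq_zero_of_abs_lt_dvd h3
    rw [abs_lt]
    constructor <;> omega
  omega

lemma offsets_count_nat (ℓ : ℕ) (hℓ : 0 < ℓ) (c : ℤ) (d : ℕ) :
    ((Finset.range ℓ).filter (fun j : ℕ => (c - j) / (ℓ : ℤ) ≠ (c + d - j) / (ℓ : ℤ))).card ≤ d := by
  induction d with
  | zero => simp
  | succ d ih =>
    have hsub : ((Finset.range ℓ).filter
        (fun j : ℕ => (c - j) / (ℓ : ℤ) ≠ (c + (d + 1 : ℕ) - j) / (ℓ : ℤ))) ⊆
      ((Finset.range ℓ).filter (fun j : ℕ => (c - j) / (ℓ : ℤ) ≠ (c + d - j) / (ℓ : ℤ))) ∪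
      ((Finset.range ℓ).filter
        (fun j : ℕ => ((c + d) - j) / (ℓ : ℤ) ≠ ((c + d) + 1 - j) / (ℓ : ℤ))) := by
      intro j hj
      rw [Finset.mem_union, Finset.mem_filter, Finset.mem_filter]
      rw [Finset.mem_filter] at hj
      by_cases h : (c - j) / (ℓ : ℤ) = (c + d - j) / (ℓ : ℤ)
      · right
        refine ⟨hj.1, ?_⟩
        rw [← h]
        have := hj.2
        push_cast at this
        rw [← add_assoc] at this
        exact this
      · left
        exact ⟨hj.1, h⟩
    refine (Finset.card_le_card hsub).trans ((Finset.card_union_le _ _).trans ?_)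
    exact Nat.add_le_add ih (offsets_step ℓ hℓ (c + d))

lemma offsets_count (ℓ : ℕ) (hℓ : 0 < ℓ) (p q : ℤ) :
    (((Finset.range ℓ).filter
      (fun j : ℕ => (p - j) / (ℓ : ℤ) ≠ (q - j) / (ℓ : ℤ))).card : ℤ) ≤ |p - q| := by
  rcases le_total p q with h | h
  · obtain ⟨d, rfl⟩ := Int.le.dest h
    have := offsets_count_nat ℓ hℓ p d
    have e : |p - (p + (d : ℤ))| = d := by
      rw [show p - (p + (d : ℤ)) = -(d : ℤ) by ring, abs_neg, abs_of_nonneg (by positivity)]
    rw [e]
    exact_mod_cast this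
  · obtain ⟨d, rfl⟩ := Int.le.dest h
    have := offsets_count_nat ℓ hℓ q d
    have e : |(q + (d : ℤ)) - q| = d := by
      rw [show (q + (d : ℤ)) - q = (d : ℤ) by ring, abs_of_nonneg (by positivity)]
    rw [e]
    have e2 : (Finset.range ℓ).filter
      (fun j : ℕ => (q + (d : ℤ) - j) / (ℓ : ℤ) ≠ (q - j) / (ℓ : ℤ)) =
      (Finset.range ℓ).filter
      (fun j : ℕ => (q - j) / (ℓ : ℤ) ≠ (q + (d : ℤ) - j) / (ℓ : ℤ)) := by
      ext j; simp only [Finset.mem_filter, ne_comm]
    rw [e2]
    exact_mod_cast this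

end Offsets

end Vale.Agent.P171
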