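import Mathlib
import Vale.Agent.P171.Geometry

set_option autoImplicit false
set_option linter.unusedSectionVars false

open MeasureTheory Set
open scoped ENNReal BigOperators

namespace Vale.Agent.P171

abbrev E3 : Type := EuclideanSpace ℝ (Fin 3)
abbrev Z3 : Type := Fin 3 → ℤ

noncomputable def cell (x : E3) : Z3 := fun i => ⌊x i⌋
noncomputable def blk (ℓ j : ℕ) (x : E3) : Z3 := fun i => (⌊x i⌋ - (j : ℤ)) / (ℓ : ℤ)

noncomputable def near (R : ℝ) (x y : E3) : ℝ := if dist x y ≤ R then 1 else 0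
noncomputable def core (x y : E3) : ℝ := if dist x y < 2 then 1 else 0
noncomputable def sc (x y : E3) : ℝ := if cell x = cell y then 1 else 0
noncomputable def sb (ℓ j : ℕ) (x y : E3) : ℝ := if blk ℓ j x = blk ℓ j y then 1 else 0
noncomputable def wr (n : ℕ) (r : ℝ) : ℝ := (((n : ℝ) + 1) ^ 3)⁻¹ * (if r ≤ (n : ℝ) + 1 then 1 else 0)
noncomputable def psi (a : ℕ → ℝ) (r : ℝ) : ℝ := ∑' n, a n * wr n r
noncomputable def uu (A : ℝ) (a : ℕ → ℝ) (x y : E3) : ℝ := - (A * core x y) + psi a (dist x y)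

lemma measurable_coord (i : Fin 3) : Measurable (fun x : E3 => x i) := by
  fun_prop

lemma measurable_cell : Measurable cell := by
  refine measurable_pi_lambda _ fun i => ?_
  exact Int.measurable_floor.comp (measurable_coord i)

lemma measurable_blk (ℓ j : ℕ) : Measurable (blk ℓ j) := by
  refine measurable_pi_lambda _ fun i => ?_
  have : Measurable (fun z : ℤ => (z - (j : ℤ)) / (ℓ : ℤ)) := measurable_of_countable _
  exact this.comp (Int.measurable_floor.comp (measurable_coord i))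

lemma measurable_sc : Measurable (fun p : E3 × E3 => sc p.1 p.2) := by
  unfold sc
  refine Measurable.ite ?_ measurable_const measurable_const
  exact measurableSet_eq_fun (measurable_cell.comp measurable_fst) (measurable_cell.comp measurable_snd)

lemma measurable_sb (ℓ j : ℕ) : Measurable (fun p : E3 × E3 => sb ℓ j p.1 p.2) := by
  unfold sb
  refine Measurable.ite ?_ measurable_const measurable_const
  exact measurableSet_eq_fun ((measurable_blk ℓ j).comp measurable_fst)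
    ((measurable_blk ℓ j).comp measurable_snd)

lemma wr_nonneg (n : ℕ) (r : ℝ) : 0 ≤ wr n r := by
  unfold wr
  refine mul_nonneg (by positivity) (by split_ifs <;> norm_num)

lemma wr_le_one (n : ℕ) (r : ℝ) : wr n r ≤ 1 := by
  unfold wr
  have h1 : (((n : ℝ) + 1) ^ 3)⁻¹ ≤ 1 := by
    apply inv_le_one_of_one_le₀
    have : (1 : ℝ) ≤ (n : ℝ) + 1 := by linarith [Nat.cast_nonneg (α := ℝ) n]
    exact one_le_pow₀ this
  have h0 : 0 ≤ (((n : ℝ) + 1) ^ 3)⁻¹ := by positivity
  split_ifs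
  · linarith
  · linarith

lemma wr_antitone (n : ℕ) : Antitone (wr n) := by
  intro r s h
  unfold wr
  refine mul_le_mul_of_nonneg_left ?_ (by positivity)
  by_cases hs : s ≤ (n : ℝ) + 1
  · simp [hs, h.trans hs]
  · simp only [hs, if_false]
    split_ifs <;> norm_num

lemma summable_aw {a : ℕ → ℝ} (ha : Summable a) (h0 : ∀ n, 0 ≤ a n) (r : ℝ) :
    Summable (fun n => a n * wr n r) := by
  refine Summable.of_nonneg_of_le (fun n => mul_nonneg (h0 n) (wr_nonneg n r)) (fun n => ?_) ha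
  calc a n * wr n r ≤ a n * 1 := mul_le_mul_of_nonneg_left (wr_le_one n r) (h0 n)
    _ = a n := mul_one _

lemma psi_antitone {a : ℕ → ℝ} (ha : Summable a) (h0 : ∀ n, 0 ≤ a n) : Antitone (psi a) := by
  intro r s h
  unfold psi
  exact Summable.tsum_le_tsum (fun n => mul_le_mul_of_nonneg_left (wr_antitone n h) (h0 n))
    (summable_aw ha h0 s) (summable_aw ha h0 r)

lemma psi_nonneg {a : ℕ → ℝ} (h0 : ∀ n, 0 ≤ a n) (r : ℝ) : 0 ≤ psi a r :=
  tsum_nonneg fun n => mul_nonneg (h0 n) (wr_nonneg n r)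

lemma psi_le {a : ℕ → ℝ} (ha : Summable a) (h0 : ∀ n, 0 ≤ a n) (r : ℝ) : psi a r ≤ ∑' n, a n := by
  unfold psi
  refine Summable.tsum_le_tsum (fun n => ?_) (summable_aw ha h0 r) ha
  calc a n * wr n r ≤ a n * 1 := mul_le_mul_of_nonneg_left (wr_le_one n r) (h0 n)
    _ = a n := mul_one _

lemma measurable_psi {a : ℕ → ℝ} (ha : Summable a) (h0 : ∀ n, 0 ≤ a n) : Measurable (psi a) :=
  (psi_antitone ha h0).measurable

lemma measurable_core : Measurable (fun p : E3 × E3 => core p.1 p.2) := by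
  unfold core
  refine Measurable.ite ?_ measurable_const measurable_const
  exact measurableSet_lt measurable_dist measurable_const

lemma measurable_uu (A : ℝ) {a : ℕ → ℝ} (ha : Summable a) (h0 : ∀ n, 0 ≤ a n) :
    Measurable (fun p : E3 × E3 => uu A a p.1 p.2) := by
  unfold uu
  exact ((measurable_core.const_mul A).neg).add ((measurable_psi ha h0).comp measurable_dist)

/-! ### elementary geometry -/

lemma abs_coord_le (x y : E3) (i : Fin 3) : |x i - y i| ≤ dist x y := by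
  rw [dist_eq_norm]
  have := PiLp.norm_apply_le (x - y) i
  simpa using this

lemma dist_sq_eq (x y : E3) : dist x y ^ 2 = ∑ i, (x i - y i) ^ 2 := by
  rw [EuclideanSpace.dist_eq, Real.sq_sqrt (Finset.sum_nonneg fun i _ => sq_nonneg _)]
  refine Finset.sum_congr rfl fun i _ => ?_
  rw [Real.dist_eq, sq_abs]

lemma dist_lt_two {x y : E3} (h : ∀ i, |x i - y i| < 1) : dist x y < 2 := by
  have h1 : dist x y ^ 2 < 2 ^ 2 := by
    rw [dist_sq_eq, Fin.sum_univ_three]
    have h2 : ∀ i, (x i - y i) ^ 2 < 1 := by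
      intro i
      have := h i
      rw [← sq_abs]
      nlinarith [abs_nonneg (x i - y i)]
    linarith [h2 0, h2 1, h2 2]
  exact lt_of_pow_lt_pow_left₀ 2 (by norm_num) h1

lemma floor_diff_le {x y : E3} {n : ℕ} (h : dist x y ≤ (n : ℝ) + 1) (i : Fin 3) :
    |⌊x i⌋ - ⌊y i⌋| ≤ (n : ℤ) + 1 := by
  have h1 := (abs_coord_le x y i).trans h
  rw [abs_le] at h1
  have a1 := Int.floor_le (x i)
  have a2 := Int.lt_floor_add_one (x i)
  have b1 := Int.floor_le (y i)
  have b2 := Int.lt_floor_add_one (y i)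
  rw [abs_le]
  constructor
  · have : (-((n : ℝ) + 1) - 1 : ℝ) < ((⌊x i⌋ - ⌊y i⌋ : ℤ) : ℝ) := by push_cast; linarith
    have h3 : (-((n : ℤ) + 1) - 1) < ⌊x i⌋ - ⌊y i⌋ := by
      have : (((-((n : ℤ) + 1) - 1 : ℤ)) : ℝ) < ((⌊x i⌋ - ⌊y i⌋ : ℤ) : ℝ) := by push_cast; push_cast at this; linarith
      exact_mod_cast this
    omega
  · have : (((⌊x i⌋ - ⌊y i⌋ : ℤ)) : ℝ) < ((((n : ℤ) + 1) + 1 : ℤ) : ℝ) := by push_cast; linarith
    have h3 : ⌊x i⌋ - ⌊y i⌋ < ((n : ℤ) + 1) + 1 := by exact_mod_cast this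
    omega

lemma core_of_cell {x y : E3} (h : cell x = cell y) : core x y = 1 := by
  unfold core
  rw [if_pos]
  apply dist_lt_two
  intro i
  have hi : ⌊x i⌋ = ⌊y i⌋ := congrFun h i
  exact Int.abs_sub_lt_one_of_floor_eq_floor hi

lemma sc_le_core (x y : E3) : sc x y ≤ core x y := by
  unfold sc
  split_ifs with h
  · rw [core_of_cell h]
  · unfold core; split_ifs <;> norm_num

lemma sb_of_cell {x y : E3} (ℓ j : ℕ) (h : cell x = cell y) : sb ℓ j x y = 1 := by
  unfold sb
  rw [if_pos]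
  funext i
  have hi : ⌊x i⌋ = ⌊y i⌋ := congrFun h i
  unfold blk
  rw [hi]

lemma sc_mul_sb (ℓ j : ℕ) (x y : E3) : sc x y * sb ℓ j x y = sc x y := by
  by_cases h : cell x = cell y
  · rw [sb_of_cell ℓ j h, mul_one]
  · simp [sc, h]

/-- number of pairs (diagonal included) of particles in a common unit cell -/
noncomputable def SS {ι : Type} [Fintype ι] (x : ι → E3) : ℝ := Sfun (fun i => cell (x i))

lemma V_add_half_card (u : E3 → E3 → ℝ) (hd : ∀ x, u x x = 1) {ι : Type} [Fintype ι] (x : ι → E3) :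
    ∑ i, ∑ j, u (x i) (x j) = 2 * V u x + Fintype.card ι := by
  classical
  have h1 : ∀ i j, u (x i) (x j) =
      (if i = j then 0 else u (x i) (x j)) + (if i = j then (1 : ℝ) else 0) := by
    intro i j
    by_cases h : i = j
    · subst h; simp [hd]
    · simp [h]
  rw [Finset.sum_congr rfl fun i _ => Finset.sum_congr rfl fun j _ => h1 i j]
  simp only [Finset.sum_add_distrib]
  unfold V
  have h2 : ∑ i : ι, ∑ j : ι, (if i = j then (1 : ℝ) else 0) = Fintype.card ι := by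
    simp
  rw [h2]
  ring_nf

lemma SS_eq {ι : Type} [Fintype ι] (x : ι → E3) : SS x = 2 * V sc x + Fintype.card ι := by
  rw [← V_add_half_card sc (fun x => by simp [sc]) x]
  rfl

lemma Sblk_eq (ℓ j : ℕ) {ι : Type} [Fintype ι] (x : ι → E3) :
    Sfun (fun i => blk ℓ j (x i)) = 2 * V (sb ℓ j) x + Fintype.card ι := by
  rw [← V_add_half_card (sb ℓ j) (fun x => by simp [sb]) x]
  rfl

lemma SS_nonneg {ι : Type} [Fintype ι] (x : ι → E3) : 0 ≤ SS x := by
  unfold SS Sfun
  exact Finset.sum_nonneg fun i _ => Finset.sum_nonneg fun j _ => by split_ifs <;> norm_num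

lemma V_le_half {u : E3 → E3 → ℝ} (h0 : ∀ x y, 0 ≤ u x y) {ι : Type} [Fintype ι] (x : ι → E3) :
    V u x ≤ (1/2) * ∑ i, ∑ j, u (x i) (x j) := by
  classical
  unfold V
  refine mul_le_mul_of_nonneg_left ?_ (by norm_num)
  refine Finset.sum_le_sum fun i _ => Finset.sum_le_sum fun j _ => ?_
  split_ifs
  · exact h0 _ _
  · exact le_rfl

/-! ### the basic pair count bounds -/

noncomputable def Bbox (m : ℕ) : Finset Z3 := Fintype.piFinset (fun _ => Finset.Icc (-(m : ℤ)) m)

lemma Bbox_card (m : ℕ) : (Bbox m).card = (2 * m + 1) ^ 3 := by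
  unfold Bbox
  rw [Fintype.card_piFinset_const, Int.card_Icc]
  congr 1
  omega

lemma wr_eq (n : ℕ) (x y : E3) : wr n (dist x y) = (((n : ℝ) + 1) ^ 3)⁻¹ * near ((n : ℝ) + 1) x y := rfl

lemma near_nonneg (R : ℝ) (x y : E3) : 0 ≤ near R x y := by
  unfold near; split_ifs <;> norm_num

lemma V_near_le (n : ℕ) {ι : Type} [Fintype ι] (x : ι → E3) :
    V (near ((n : ℝ) + 1)) x ≤ (1/2) * ((2 * ((n : ℝ) + 1) + 1) ^ 3 * SS x) := by
  classical
  refine (V_le_half (near_nonneg _) x).trans ?_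
  refine mul_le_mul_of_nonneg_left ?_ (by norm_num)
  have h := count_pairs (fun i => cell (x i)) (Bbox (n + 1))
    (fun i j => dist (x i) (x j) ≤ (n : ℝ) + 1) (by
      intro i j hij
      unfold Bbox
      rw [Fintype.mem_piFinset]
      intro k
      have h1 := floor_diff_le hij k
      rw [abs_le] at h1
      rw [Finset.mem_Icc]
      have e : (cell (x j) - cell (x i)) k = ⌊x j k⌋ - ⌊x i k⌋ := rfl
      rw [e]
      push_cast
      constructor
      · linarith [h1.2]
      · linarith [h1.1])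
  rw [Bbox_card] at h
  push_cast at h
  exact h

lemma V_wr_le (n : ℕ) {ι : Type} [Fintype ι] (x : ι → E3) :
    V (fun a b => wr n (dist a b)) x ≤ (27/2) * SS x := by
  have e : V (fun a b => wr n (dist a b)) x = (((n : ℝ) + 1) ^ 3)⁻¹ * V (near ((n : ℝ) + 1)) x := by
    rw [← V_smul]; rfl
  rw [e]
  have hpos : (0 : ℝ) < ((n : ℝ) + 1) ^ 3 := by positivity
  rw [inv_mul_le_iff₀ hpos]
  refine (V_near_le n x).trans ?_
  have hS := SS_nonneg x
  have h1 : (2 * ((n : ℝ) + 1) + 1) ^ 3 ≤ 27 * ((n : ℝ) + 1) ^ 3 := by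
    have : (2 * ((n : ℝ) + 1) + 1) ≤ 3 * ((n : ℝ) + 1) := by linarith [Nat.cast_nonneg (α := ℝ) n]
    calc (2 * ((n : ℝ) + 1) + 1) ^ 3 ≤ (3 * ((n : ℝ) + 1)) ^ 3 := pow_le_pow_left₀ (by positivity) this 3
      _ = 27 * ((n : ℝ) + 1) ^ 3 := by ring
  nlinarith [mul_le_mul_of_nonneg_right h1 hS]

lemma V_wr_nonneg (n : ℕ) {ι : Type} [Fintype ι] (x : ι → E3) :
    0 ≤ V (fun a b => wr n (dist a b)) x :=
  V_nonneg x fun _ _ _ => wr_nonneg n _

lemma V_psi_hasSum {a : ℕ → ℝ} (ha : Summable a) (h0 : ∀ n, 0 ≤ a n) {ι : Type} [Fintype ι]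
    (x : ι → E3) :
    HasSum (fun n => a n * V (fun a b => wr n (dist a b)) x) (V (fun x y => psi a (dist x y)) x) := by
  classical
  have h1 : ∀ i j : ι, HasSum (fun n => a n * (if i = j then 0 else wr n (dist (x i) (x j))))
      (if i = j then 0 else psi a (dist (x i) (x j))) := by
    intro i j
    by_cases hij : i = j
    · simp [hij, hasSum_zero]
    · simp only [hij, if_false]
      exact (summable_aw ha h0 _).hasSum
  have h2 : HasSum (fun n => ∑ i, ∑ j, a n * (if i = j then 0 else wr n (dist (x i) (x j))))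
      (∑ i, ∑ j, (if i = j then 0 else psi a (dist (x i) (x j)))) :=
    hasSum_sum fun i _ => hasSum_sum fun j _ => h1 i j
  have h3 := h2.mul_left (1/2)
  have e : (fun n => a n * V (fun a b => wr n (dist a b)) x) =
      fun n => (1/2) * ∑ i, ∑ j, a n * (if i = j then 0 else wr n (dist (x i) (x j))) := by
    funext n
    simp only [← Finset.mul_sum]
    unfold V
    ring
  rw [e]
  have e2 : V (fun x y => psi a (dist x y)) x =
    (1/2) * (∑ i, ∑ j, (if i = j then 0 else psi a (dist (x i) (x j)))) := by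
    unfold V
    congr 1
  rw [e2]
  exact h3

lemma V_psi_le {a : ℕ → ℝ} (ha : Summable a) (h0 : ∀ n, 0 ≤ a n) {ι : Type} [Fintype ι]
    (x : ι → E3) :
    V (fun x y => psi a (dist x y)) x ≤ (27/2) * (∑' n, a n) * SS x := by
  have h1 := V_psi_hasSum ha h0 x
  have h2 : HasSum (fun n => a n * ((27/2) * SS x)) ((∑' n, a n) * ((27/2) * SS x)) :=
    ha.hasSum.mul_right _
  have h3 := hasSum_le (fun n => mul_le_mul_of_nonneg_left (V_wr_le n x) (h0 n)) h1 h2
  linarith

lemma V_uu {A : ℝ} {a : ℕ → ℝ} {ι : Type} [Fintype ι] (x : ι → E3) :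
    V (uu A a) x = - (A * V core x) + V (fun x y => psi a (dist x y)) x := by
  have : V (uu A a) x = V (fun p q => (-A) * core p q + psi a (dist p q)) x :=
    V_congr x fun i j _ => by unfold uu; ring
  rw [this, V_add, V_smul]
  ring

/-- superstability -/
lemma V_uu_le {A : ℝ} (hA : 0 ≤ A) {a : ℕ → ℝ} (ha : Summable a) (h0 : ∀ n, 0 ≤ a n)
    {ι : Type} [Fintype ι] (x : ι → E3) :
    V (uu A a) x ≤ (A / 2) * Fintype.card ι - (1/2) * (A - 27 * ∑' n, a n) * SS x := by
  rw [V_uu]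
  have h1 := V_psi_le ha h0 x
  have h2 : V sc x ≤ V core x := V_mono x fun i j _ => sc_le_core _ _
  have h3 := SS_eq x
  have h4 : A * V sc x ≤ A * V core x := mul_le_mul_of_nonneg_left h2 hA
  nlinarith

/-! ### counting with blocks -/

def latBall (r : ℝ) : Set Z3 := {k | (∑ i, (k i : ℝ) ^ 2) ≤ r ^ 2}

lemma latBall_subset (r : ℝ) (hr : 0 ≤ r) : latBall r ⊆ (Bbox ⌈r⌉₊ : Set Z3) := by
  intro k hk
  have hk' : (∑ i, (k i : ℝ) ^ 2) ≤ r ^ 2 := hk
  simp only [Bbox, Finset.mem_coe, Fintype.mem_piFinset, Finset.mem_Icc]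
  intro i
  have h1 : (k i : ℝ) ^ 2 ≤ r ^ 2 :=
    (Finset.single_le_sum (f := fun i => (k i : ℝ) ^ 2) (fun i _ => sq_nonneg _)
      (Finset.mem_univ i)).trans hk'
  have h2 : |(k i : ℝ)| ≤ r := abs_le_of_sq_le_sq h1 hr
  have h3 : |(k i : ℝ)| ≤ (⌈r⌉₊ : ℝ) := h2.trans (Nat.le_ceil r)
  rw [abs_le] at h3
  constructor
  · have : ((-(⌈r⌉₊ : ℤ) : ℤ) : ℝ) ≤ (k i : ℝ) := by push_cast; exact h3.1
    exact_mod_cast this
  · have : (k i : ℝ) ≤ (((⌈r⌉₊ : ℕ) : ℤ) : ℝ) := by push_cast; exact h3.2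
    exact_mod_cast this

lemma latBall_finite (r : ℝ) (hr : 0 ≤ r) : (latBall r).Finite :=
  (Finset.finite_toSet _).subset (latBall_subset r hr)

end Vale.Agent.P171
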