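import Mathlib
import Vale.Agent.P171.Potential

set_option autoImplicit false
set_option linter.unusedSectionVars false

open MeasureTheory Set
open scoped ENNReal BigOperators

namespace Vale.Agent.P171

lemma blk_bounds {ℓ : ℕ} (hℓ : 0 < ℓ) (j : ℕ) (x : E3) (i : Fin 3) :
    0 ≤ x i - j - ℓ * (blk ℓ j x i : ℝ) ∧ x i - j - ℓ * (blk ℓ j x i : ℝ) < ℓ := by
  have hl : (0 : ℤ) < ℓ := by exact_mod_cast hℓ
  have e1 := Int.emod_add_mul_ediv (⌊x i⌋ - (j : ℤ)) ℓ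
  have e2 := Int.emod_nonneg (⌊x i⌋ - (j : ℤ)) hl.ne'
  have e3 := Int.emod_lt_of_pos (⌊x i⌋ - (j : ℤ)) hl
  have a1 := Int.floor_le (x i)
  have a2 := Int.lt_floor_add_one (x i)
  have hb : blk ℓ j x i = (⌊x i⌋ - (j : ℤ)) / (ℓ : ℤ) := rfl
  rw [← hb] at e1
  generalize blk ℓ j x i = b at e1 ⊢
  generalize (⌊x i⌋ - (j : ℤ)) % (ℓ : ℤ) = r at e1 e2 e3
  have f1 : (r : ℝ) + ℓ * (b : ℝ) = (⌊x i⌋ : ℝ) - j := by exact_mod_cast e1
  have f2 : (0 : ℝ) ≤ r := by exact_mod_cast e2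
  have f3 : (r : ℝ) + 1 ≤ ℓ := by exact_mod_cast e3
  constructor <;> linarith

lemma blk_diff_mem {ℓ : ℕ} (hℓ : 0 < ℓ) (j : ℕ) {x y : E3} {R : ℝ} (hR : 0 ≤ R)
    (h : dist x y ≤ R) : blk ℓ j y - blk ℓ j x ∈ latBall (R / ℓ + 2) := by
  have hl : (0 : ℝ) < ℓ := by exact_mod_cast hℓ
  set v : E3 := WithLp.toLp 2 (fun i => (ℓ : ℝ) * ((blk ℓ j y - blk ℓ j x) i : ℝ)) with hv
  have hvi : ∀ i, v i = (ℓ : ℝ) * ((blk ℓ j y - blk ℓ j x) i : ℝ) := fun i => rfl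
  have h1 : ‖v - (y - x)‖ ≤ 2 * ℓ := by
    have h2 : ‖v - (y - x)‖ ^ 2 ≤ (2 * ℓ) ^ 2 := by
      rw [EuclideanSpace.norm_sq_eq, Fin.sum_univ_three]
      have h3 : ∀ i, ‖(v - (y - x)) i‖ ^ 2 ≤ (ℓ : ℝ) ^ 2 := by
        intro i
        have bx := blk_bounds hℓ j x i
        have by' := blk_bounds hℓ j y i
        have e : (v - (y - x)) i = (ℓ : ℝ) * (((blk ℓ j y i : ℤ) : ℝ) - ((blk ℓ j x i : ℤ) : ℝ)) - (y i - x i) := by
          have : (v - (y - x)) i = v i - (y i - x i) := rfl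
          rw [this, hvi]
          simp
        rw [e, Real.norm_eq_abs, sq_abs]
        apply sq_le_sq'
        · nlinarith [bx.1, bx.2, by'.1, by'.2]
        · nlinarith [bx.1, bx.2, by'.1, by'.2]
      nlinarith [h3 0, h3 1, h3 2]
    exact le_of_sq_le_sq h2 (by positivity)
  have h4 : ‖v‖ ≤ R + 2 * ℓ := by
    calc ‖v‖ = ‖(v - (y - x)) + (y - x)‖ := by rw [sub_add_cancel]
      _ ≤ ‖v - (y - x)‖ + ‖y - x‖ := norm_add_le _ _
      _ ≤ 2 * ℓ + R := by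
          refine add_le_add h1 ?_
          rw [← dist_eq_norm, dist_comm]; exact h
      _ = R + 2 * ℓ := by ring
  show (∑ i, ((blk ℓ j y - blk ℓ j x) i : ℝ) ^ 2) ≤ (R / ℓ + 2) ^ 2
  have h5 : ‖v‖ ^ 2 ≤ (R + 2 * ℓ) ^ 2 := pow_le_pow_left₀ (norm_nonneg _) h4 2
  rw [EuclideanSpace.norm_sq_eq] at h5
  have h6 : ∑ i, ‖v i‖ ^ 2 = (ℓ : ℝ) ^ 2 * ∑ i, ((blk ℓ j y - blk ℓ j x) i : ℝ) ^ 2 := by
    rw [Finset.mul_sum]
    refine Finset.sum_congr rfl fun i _ => ?_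
    rw [hvi, Real.norm_eq_abs, sq_abs]; ring
  rw [h6] at h5
  have h7 : (R + 2 * ℓ) ^ 2 = (ℓ : ℝ) ^ 2 * (R / ℓ + 2) ^ 2 := by
    field_simp
  rw [h7] at h5
  exact le_of_mul_le_mul_left h5 (by positivity)

noncomputable def kap (ℓ m : ℕ) : ℝ :=
  (((m : ℝ) + 1) ^ 3)⁻¹ * ((latBall (((m : ℝ) + 1) / ℓ + 2)).ncard : ℝ)

lemma kap_nonneg (ℓ m : ℕ) : 0 ≤ kap ℓ m := by unfold kap; positivity

lemma V_wr_le_blk {ℓ : ℕ} (hℓ : 0 < ℓ) (j m : ℕ) {ι : Type} [Fintype ι] (x : ι → E3) :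
    V (fun a b => wr m (dist a b)) x ≤ (kap ℓ m / 2) * Sfun (fun i => blk ℓ j (x i)) := by
  classical
  have e : V (fun a b => wr m (dist a b)) x = (((m : ℝ) + 1) ^ 3)⁻¹ * V (near ((m : ℝ) + 1)) x := by
    rw [← V_smul]; rfl
  rw [e]
  have hfin := latBall_finite (((m : ℝ) + 1) / ℓ + 2) (by positivity)
  have h1 : V (near ((m : ℝ) + 1)) x ≤
      (1/2) * (((latBall (((m : ℝ) + 1) / ℓ + 2)).ncard : ℝ) * Sfun (fun i => blk ℓ j (x i))) := by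
    refine (V_le_half (near_nonneg _) x).trans ?_
    refine mul_le_mul_of_nonneg_left ?_ (by norm_num)
    have h := count_pairs (fun i => blk ℓ j (x i)) hfin.toFinset
      (fun i k => dist (x i) (x k) ≤ (m : ℝ) + 1) (by
        intro i k hik
        rw [Set.Finite.mem_toFinset]
        exact blk_diff_mem hℓ j (by positivity) hik)
    rw [Set.ncard_eq_toFinset_card _ hfin]
    exact h
  calc (((m : ℝ) + 1) ^ 3)⁻¹ * V (near ((m : ℝ) + 1)) x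
      ≤ (((m : ℝ) + 1) ^ 3)⁻¹ * ((1/2) * (((latBall (((m : ℝ) + 1) / ℓ + 2)).ncard : ℝ) *
        Sfun (fun i => blk ℓ j (x i)))) := mul_le_mul_of_nonneg_left h1 (by positivity)
    _ = (kap ℓ m / 2) * Sfun (fun i => blk ℓ j (x i)) := by unfold kap; ring

/-- fraction of offsets separating two points -/
lemma sum_one_sub_sb_le {ℓ : ℕ} (hℓ : 0 < ℓ) {x y : E3} {n : ℕ} (h : dist x y ≤ (n : ℝ) + 1) :
    ∑ j ∈ Finset.range ℓ, (1 - sb ℓ j x y) ≤ 3 * ((n : ℝ) + 1) := by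
  classical
  have h1 : ∀ j ∈ Finset.range ℓ, (1 - sb ℓ j x y) ≤
      ∑ i : Fin 3, (if (⌊x i⌋ - (j : ℤ)) / (ℓ : ℤ) ≠ (⌊y i⌋ - (j : ℤ)) / (ℓ : ℤ) then (1 : ℝ) else 0) := by
    intro j _
    by_cases hb : blk ℓ j x = blk ℓ j y
    · simp only [sb, hb, if_true, sub_self]
      exact Finset.sum_nonneg fun i _ => by split_ifs <;> norm_num
    · have hne : ∃ i, blk ℓ j x i ≠ blk ℓ j y i := by
        by_contra hcon
        exact hb (funext fun i => by by_contra hi; exact hcon ⟨i, hi⟩)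
      obtain ⟨i, hi⟩ := hne
      simp only [sb, hb, if_false, sub_zero]
      refine le_trans ?_ (Finset.single_le_sum
        (f := fun i : Fin 3 => (if (⌊x i⌋ - (j : ℤ)) / (ℓ : ℤ) ≠ (⌊y i⌋ - (j : ℤ)) / (ℓ : ℤ) then (1 : ℝ) else 0))
        (fun i _ => by split_ifs <;> norm_num) (Finset.mem_univ i))
      have hi' : (⌊x i⌋ - (j : ℤ)) / (ℓ : ℤ) ≠ (⌊y i⌋ - (j : ℤ)) / (ℓ : ℤ) := hi
      simp only [hi', ne_eq, not_false_eq_true, if_true]
      exact le_rfl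
  refine (Finset.sum_le_sum h1).trans ?_
  rw [Finset.sum_comm]
  have h2 : ∀ i ∈ (Finset.univ : Finset (Fin 3)), ∑ j ∈ Finset.range ℓ,
      (if (⌊x i⌋ - (j : ℤ)) / (ℓ : ℤ) ≠ (⌊y i⌋ - (j : ℤ)) / (ℓ : ℤ) then (1 : ℝ) else 0) ≤ (n : ℝ) + 1 := by
    intro i _
    rw [Finset.sum_ite]
    simp only [Finset.sum_const_zero, add_zero, Finset.sum_const, nsmul_eq_mul, mul_one]
    have h3 := offsets_count ℓ hℓ ⌊x i⌋ ⌊y i⌋
    have h4 := h3.trans (floor_diff_le h i)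
    exact_mod_cast h4
  refine (Finset.sum_le_sum h2).trans ?_
  rw [Fin.sum_univ_three]
  linarith

lemma sb_le_one (ℓ j : ℕ) (x y : E3) : sb ℓ j x y ≤ 1 := by
  unfold sb; split_ifs <;> norm_num
lemma sb_nonneg (ℓ j : ℕ) (x y : E3) : 0 ≤ sb ℓ j x y := by
  unfold sb; split_ifs <;> norm_num

noncomputable def sg (ℓ : ℕ) (x y : E3) : ℝ := (1 / (ℓ : ℝ)) * ∑ j ∈ Finset.range ℓ, sb ℓ j x y

lemma sg_le_one {ℓ : ℕ} (hℓ : 0 < ℓ) (x y : E3) : sg ℓ x y ≤ 1 := by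
  have hl : (0 : ℝ) < ℓ := by exact_mod_cast hℓ
  unfold sg
  have h1 : ∑ j ∈ Finset.range ℓ, sb ℓ j x y ≤ ℓ := by
    calc ∑ j ∈ Finset.range ℓ, sb ℓ j x y ≤ ∑ j ∈ Finset.range ℓ, (1 : ℝ) :=
          Finset.sum_le_sum fun j _ => sb_le_one ℓ j x y
      _ = ℓ := by simp
  calc (1 / (ℓ : ℝ)) * ∑ j ∈ Finset.range ℓ, sb ℓ j x y ≤ (1 / (ℓ : ℝ)) * ℓ :=
        mul_le_mul_of_nonneg_left h1 (by positivity)
    _ = 1 := by field_simp

noncomputable def mi (ℓ n : ℕ) : ℝ := min 1 (3 * ((n : ℝ) + 1) / ℓ)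

lemma mi_nonneg (ℓ n : ℕ) : 0 ≤ mi ℓ n := by unfold mi; positivity
lemma mi_le_one (ℓ n : ℕ) : mi ℓ n ≤ 1 := min_le_left _ _

lemma wr_sg_le {ℓ : ℕ} (hℓ : 0 < ℓ) (n : ℕ) (x y : E3) :
    wr n (dist x y) * (1 - sg ℓ x y) ≤ mi ℓ n * wr n (dist x y) := by
  have hl : (0 : ℝ) < ℓ := by exact_mod_cast hℓ
  by_cases h : dist x y ≤ (n : ℝ) + 1
  · have h1 : 1 - sg ℓ x y ≤ mi ℓ n := by
      unfold mi
      refine le_min ?_ ?_
      · have : 0 ≤ sg ℓ x y := by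
          unfold sg
          exact mul_nonneg (by positivity) (Finset.sum_nonneg fun j _ => sb_nonneg ℓ j x y)
        linarith
      · have h2 := sum_one_sub_sb_le hℓ h
        rw [Finset.sum_sub_distrib] at h2
        simp only [Finset.sum_const, Finset.card_range, nsmul_eq_mul, mul_one] at h2
        unfold sg
        rw [le_div_iff₀ hl]
        have e : (1 - 1 / (ℓ : ℝ) * ∑ j ∈ Finset.range ℓ, sb ℓ j x y) * ℓ =
          ℓ - ∑ j ∈ Finset.range ℓ, sb ℓ j x y := by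
          field_simp
        rw [e]; exact h2
    rw [mul_comm]
    exact mul_le_mul_of_nonneg_right h1 (wr_nonneg n _)
  · have : wr n (dist x y) = 0 := by
      unfold wr; simp [h]
    rw [this]; simp

noncomputable def eta (a : ℕ → ℝ) (ℓ : ℕ) : ℝ := 27 * ∑' n, a n * mi ℓ n

lemma summable_mi {a : ℕ → ℝ} (ha : Summable a) (h0 : ∀ n, 0 ≤ a n) (ℓ : ℕ) :
    Summable (fun n => a n * mi ℓ n) := by
  refine Summable.of_nonneg_of_le (fun n => mul_nonneg (h0 n) (mi_nonneg ℓ n)) (fun n => ?_) ha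
  calc a n * mi ℓ n ≤ a n * 1 := mul_le_mul_of_nonneg_left (mi_le_one ℓ n) (h0 n)
    _ = a n := mul_one _

/-- effective single-block interaction -/
noncomputable def uh (A : ℝ) (a : ℕ → ℝ) (τ η : ℝ) (x y : E3) : ℝ := uu A a x y + τ + η * sc x y

lemma psi_mul_one_sub_le {a : ℕ → ℝ} (ha : Summable a) (h0 : ∀ n, 0 ≤ a n) {ℓ : ℕ} (hℓ : 0 < ℓ)
    (x y : E3) :
    psi a (dist x y) * (1 - sg ℓ x y) ≤ psi (fun n => a n * mi ℓ n) (dist x y) := by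
  unfold psi
  rw [← tsum_mul_right]
  refine Summable.tsum_le_tsum (fun n => ?_) ((summable_aw ha h0 _).mul_right _)
    (summable_aw (summable_mi ha h0 ℓ) (fun n => mul_nonneg (h0 n) (mi_nonneg ℓ n)) _)
  have := wr_sg_le hℓ n x y
  calc a n * wr n (dist x y) * (1 - sg ℓ x y) = a n * (wr n (dist x y) * (1 - sg ℓ x y)) := by ring
    _ ≤ a n * (mi ℓ n * wr n (dist x y)) := mul_le_mul_of_nonneg_left this (h0 n)
    _ = a n * mi ℓ n * wr n (dist x y) := by ring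

lemma V_decouple {A : ℝ} (hA : 0 ≤ A) {a : ℕ → ℝ} (ha : Summable a) (h0 : ∀ n, 0 ≤ a n) {ℓ : ℕ}
    (hℓ : 0 < ℓ) {ι : Type} [Fintype ι] (x : ι → E3) :
    V (uu A a) x ≤ V (fun p q => uu A a p q * sg ℓ p q) x + (eta a ℓ / 2) * SS x := by
  have h1 : V (uu A a) x ≤ V (fun p q => uu A a p q * sg ℓ p q +
      psi (fun n => a n * mi ℓ n) (dist p q)) x := by
    refine V_mono x fun i j _ => ?_
    have h2 := psi_mul_one_sub_le ha h0 hℓ (x i) (x j)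
    have h3 : 0 ≤ A * core (x i) (x j) * (1 - sg ℓ (x i) (x j)) := by
      refine mul_nonneg (mul_nonneg hA ?_) ?_
      · unfold core; split_ifs <;> norm_num
      · linarith [sg_le_one hℓ (x i) (x j)]
    unfold uu
    nlinarith
  rw [V_add] at h1
  have h4 := V_psi_le (summable_mi ha h0 ℓ) (fun n => mul_nonneg (h0 n) (mi_nonneg ℓ n)) x
  unfold eta
  linarith

/-- The pointwise decoupling inequality. -/
theorem decouple_pointwise {A : ℝ} (hA : 0 ≤ A) {a : ℕ → ℝ} (ha : Summable a) (h0 : ∀ n, 0 ≤ a n)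
    {ℓ : ℕ} (hℓ : 0 < ℓ) {t : ℝ} (ht : 0 ≤ t) (m : ℕ) (μ : ℝ) {ι : Type} [Fintype ι] (x : ι → E3) :
    V (uu A a) x + t * V (fun p q => wr m (dist p q)) x + μ * Fintype.card ι ≤
      ∑ j ∈ Finset.range ℓ, (1 / (ℓ : ℝ)) *
        (V (fun p q => uh A a (t * kap ℓ m) (eta a ℓ) p q * sb ℓ j p q) x +
          (μ + t * kap ℓ m / 2 + eta a ℓ / 2) * Fintype.card ι) := by
  have hl : (0 : ℝ) < ℓ := by exact_mod_cast hℓ
  -- each term
  have h1 : ∀ j, V (fun p q => uh A a (t * kap ℓ m) (eta a ℓ) p q * sb ℓ j p q) x =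
      V (fun p q => uu A a p q * sb ℓ j p q) x + t * kap ℓ m * V (sb ℓ j) x + eta a ℓ * V sc x := by
    intro j
    rw [← V_smul, ← V_smul, ← V_add, ← V_add]
    refine V_congr x fun i k _ => ?_
    unfold uh
    have := sc_mul_sb ℓ j (x i) (x k)
    linear_combination (eta a ℓ) * this
  have h2 : ∀ j, t * V (fun p q => wr m (dist p q)) x ≤
      t * kap ℓ m * V (sb ℓ j) x + t * kap ℓ m / 2 * Fintype.card ι := by
    intro j
    have h3 := V_wr_le_blk hℓ j m x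
    rw [Sblk_eq] at h3
    have h4 := mul_le_mul_of_nonneg_left h3 ht
    linarith
  have h5 := V_decouple hA ha h0 hℓ x
  have h6 : V (fun p q => uu A a p q * sg ℓ p q) x =
      ∑ j ∈ Finset.range ℓ, (1 / (ℓ : ℝ)) * V (fun p q => uu A a p q * sb ℓ j p q) x := by
    rw [← Finset.mul_sum, ← V_sum, ← V_smul]
    refine V_congr x fun i k _ => ?_
    unfold sg
    rw [← Finset.mul_sum]; ring
  rw [SS_eq] at h5
  have h7 : ∑ j ∈ Finset.range ℓ, (1 / (ℓ : ℝ)) *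
        (V (fun p q => uh A a (t * kap ℓ m) (eta a ℓ) p q * sb ℓ j p q) x +
          (μ + t * kap ℓ m / 2 + eta a ℓ / 2) * Fintype.card ι) ≥
      ∑ j ∈ Finset.range ℓ, (1 / (ℓ : ℝ)) * (V (fun p q => uu A a p q * sb ℓ j p q) x +
        (t * V (fun p q => wr m (dist p q)) x + μ * Fintype.card ι + eta a ℓ * V sc x +
          eta a ℓ / 2 * Fintype.card ι)) := by
    refine Finset.sum_le_sum fun j _ => ?_
    refine mul_le_mul_of_nonneg_left ?_ (by positivity)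
    rw [h1 j]
    have := h2 j
    linarith
  refine le_trans ?_ h7
  have h8 : ∀ (f : ℕ → ℝ) (C : ℝ), ∑ j ∈ Finset.range ℓ, (1 / (ℓ : ℝ)) * (f j + C) =
      (∑ j ∈ Finset.range ℓ, (1 / (ℓ : ℝ)) * f j) + C := by
    intro f C
    simp only [mul_add]
    rw [Finset.sum_add_distrib, Finset.sum_const, Finset.card_range, nsmul_eq_mul]
    field_simp
  rw [h8, ← h6]
  linarith

end Vale.Agent.P171
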