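import Mathlib
import Vale.Agent.P171.Decouple

set_option autoImplicit false
set_option linter.unusedSectionVars false

open MeasureTheory Set
open scoped ENNReal BigOperators

namespace Vale.Agent.P171

def cube (M : ℝ) : Set E3 := {x | ∀ i, 0 ≤ x i ∧ x i ≤ M}

lemma measurableSet_cube (M : ℝ) : MeasurableSet (cube M) := by
  have : cube M = ⋂ i, {x : E3 | 0 ≤ x i ∧ x i ≤ M} := by ext x; simp [cube]
  rw [this]
  refine MeasurableSet.iInter fun i => ?_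
  exact (measurableSet_le measurable_const (measurable_coord i)).inter
    (measurableSet_le (measurable_coord i) measurable_const)

def Dblk (ℓ j : ℕ) (k : Z3) : Set E3 := {x | blk ℓ j x = k}

lemma measurableSet_Dblk (ℓ j : ℕ) (k : Z3) : MeasurableSet (Dblk ℓ j k) :=
  (measurable_blk ℓ j) (measurableSet_singleton k)

lemma measurable_uh (A : ℝ) {a : ℕ → ℝ} (ha : Summable a) (h0 : ∀ n, 0 ≤ a n) (τ η : ℝ) :
    Measurable (fun p : E3 × E3 => uh A a τ η p.1 p.2) := by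
  unfold uh
  exact ((measurable_uu A ha h0).add_const _).add (measurable_sc.const_mul _)

lemma summable_single (m : ℕ) (t : ℝ) : Summable (fun n => if n = m then t else 0) :=
  (hasSum_ite_eq m t).summable

lemma psi_add_single {a : ℕ → ℝ} (ha : Summable a) (h0 : ∀ n, 0 ≤ a n) (m : ℕ) {t : ℝ}
    (ht : 0 ≤ t) (r : ℝ) :
    psi (fun n => a n + if n = m then t else 0) r = psi a r + t * wr m r := by
  unfold psi
  have h1 : ∀ n, (a n + if n = m then t else 0) * wr n r =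
      a n * wr n r + (if n = m then t * wr m r else 0) := by
    intro n
    by_cases h : n = m
    · subst h; simp; ring
    · simp [h]
  rw [tsum_congr h1, Summable.tsum_add (summable_aw ha h0 r) (summable_single m (t * wr m r)),
    tsum_ite_eq]

lemma V_uu_add_single {A : ℝ} {a : ℕ → ℝ} (ha : Summable a) (h0 : ∀ n, 0 ≤ a n) (m : ℕ) {t : ℝ}
    (ht : 0 ≤ t) {ι : Type} [Fintype ι] (x : ι → E3) :
    V (uu A (fun n => a n + if n = m then t else 0)) x =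
      V (uu A a) x + t * V (fun p q => wr m (dist p q)) x := by
  rw [← V_smul, ← V_add]
  refine V_congr x fun i j _ => ?_
  unfold uu
  rw [psi_add_single ha h0 m ht]
  ring

lemma dist_add_right_E3 (x y v : E3) : dist (x + v) (y + v) = dist x y := dist_add_right x y v

lemma cell_add (x v : E3) (z : Z3) (hv : ∀ i, v i = (z i : ℝ)) : cell (x + v) = cell x + z := by
  funext i
  have : (x + v) i = x i + v i := rfl
  unfold cell
  rw [this, hv, Int.floor_add_intCast]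
  rfl

lemma uh_add (A : ℝ) (a : ℕ → ℝ) (τ η : ℝ) (x y v : E3) (z : Z3) (hv : ∀ i, v i = (z i : ℝ)) :
    uh A a τ η (x + v) (y + v) = uh A a τ η x y := by
  unfold uh uu core sc
  rw [dist_add_right_E3, cell_add x v z hv, cell_add y v z hv]
  simp

lemma Xi_Dblk_eq {ℓ : ℕ} (hℓ : 0 < ℓ) (j : ℕ) (k : Z3) (A : ℝ) {a : ℕ → ℝ} (ha : Summable a)
    (h0 : ∀ n, 0 ≤ a n) (τ η μ : ℝ) :
    Xi (Dblk ℓ j k) (ham (uh A a τ η) μ) = Xi (Dblk ℓ 0 0) (ham (uh A a τ η) μ) := by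
  have hl : (ℓ : ℤ) ≠ 0 := by exact_mod_cast hℓ.ne'
  set z : Z3 := fun i => (j : ℤ) + ℓ * k i with hz
  set v : E3 := WithLp.toLp 2 (fun i => (z i : ℝ)) with hv
  have hvi : ∀ i, v i = (z i : ℝ) := fun i => rfl
  rw [← Xi_preimage (measurableSet_Dblk ℓ j k) (fun x => x + v) (measurePreserving_add_right volume v)
    (measurable_uh A ha h0 τ η) μ (fun x y => uh_add A a τ η x y v z hvi)]
  congr 1
  ext x
  simp only [Dblk, Set.mem_preimage, Set.mem_ofPred_eq]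
  have e : ∀ i, blk ℓ j (x + v) i = blk ℓ 0 x i + k i := by
    intro i
    unfold blk
    have : (x + v) i = x i + v i := rfl
    rw [this, hvi, Int.floor_add_intCast]
    have e2 : (⌊x i⌋ + z i - (j : ℤ)) = ⌊x i⌋ + ℓ * k i := by rw [hz]; ring
    rw [e2, Int.add_mul_ediv_left _ _ hl]
    simp
  constructor
  · intro h
    funext i
    have := congrFun h i
    rw [e] at this
    have h3 : blk ℓ 0 x i = 0 := by linarith
    exact h3
  · intro h
    funext i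
    rw [e, h]; simp

noncomputable def Tset (ℓ : ℕ) (M : ℝ) : Finset Z3 :=
  Fintype.piFinset (fun _ => Finset.Icc (-1 : ℤ) (⌊M⌋ / (ℓ : ℤ)))

lemma Tset_card {ℓ : ℕ} (hℓ : 0 < ℓ) {M : ℝ} (hM : 0 ≤ M) :
    ((Tset ℓ M).card : ℝ) ≤ (M / ℓ + 2) ^ 3 := by
  have hl : (0 : ℝ) < ℓ := by exact_mod_cast hℓ
  have hlz : (0 : ℤ) < ℓ := by exact_mod_cast hℓ
  have h0 : (0 : ℤ) ≤ ⌊M⌋ / (ℓ : ℤ) := Int.ediv_nonneg (Int.floor_nonneg.2 hM) (by positivity)
  have hc : (Tset ℓ M).card = ((⌊M⌋ / (ℓ : ℤ) + 2).toNat) ^ 3 := by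
    unfold Tset
    rw [Fintype.card_piFinset_const, Int.card_Icc]
    congr 2
    ring
  rw [hc]
  push_cast
  refine pow_le_pow_left₀ (by positivity) ?_ 3
  have h1 : (((⌊M⌋ / (ℓ : ℤ) + 2).toNat : ℕ) : ℝ) = ((⌊M⌋ / (ℓ : ℤ) + 2 : ℤ) : ℝ) := by
    have : (((⌊M⌋ / (ℓ : ℤ) + 2).toNat : ℕ) : ℤ) = (⌊M⌋ / (ℓ : ℤ) + 2) :=
      Int.toNat_of_nonneg (by linarith)
    exact_mod_cast congrArg (fun z : ℤ => (z : ℝ)) this
  rw [h1]
  push_cast
  have h2 : ((⌊M⌋ / (ℓ : ℤ) : ℤ) : ℝ) ≤ M / ℓ := by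
    rw [le_div_iff₀ hl]
    have h3 : (⌊M⌋ / (ℓ : ℤ)) * ℓ ≤ ⌊M⌋ := Int.ediv_mul_le _ hlz.ne'
    have h4 : (((⌊M⌋ / (ℓ : ℤ)) * ℓ : ℤ) : ℝ) ≤ (⌊M⌋ : ℝ) := by exact_mod_cast h3
    push_cast at h4
    exact h4.trans (Int.floor_le M)
  linarith

lemma cube_subset_blocks {ℓ : ℕ} (hℓ : 0 < ℓ) {j : ℕ} (hj : j < ℓ) (M : ℝ) :
    cube M ⊆ ⋃ k ∈ Tset ℓ M, Dblk ℓ j k := by
  have hlz : (0 : ℤ) < ℓ := by exact_mod_cast hℓ
  intro x hx
  rw [Set.mem_iUnion₂]
  refine ⟨blk ℓ j x, ?_, rfl⟩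
  unfold Tset
  rw [Fintype.mem_piFinset]
  intro i
  rw [Finset.mem_Icc]
  have h1 := hx i
  have f0 : 0 ≤ ⌊x i⌋ := Int.floor_nonneg.2 h1.1
  have f1 : ⌊x i⌋ ≤ ⌊M⌋ := Int.floor_le_floor h1.2
  unfold blk
  constructor
  · rw [Int.le_ediv_iff_mul_le hlz]
    have : (j : ℤ) < ℓ := by exact_mod_cast hj
    linarith
  · refine Int.ediv_le_ediv hlz ?_
    have : (0 : ℤ) ≤ j := by positivity
    linarith

lemma Xi_cube_le_blocks {ℓ : ℕ} (hℓ : 0 < ℓ) {j : ℕ} (hj : j < ℓ) (M : ℝ) (A : ℝ) {a : ℕ → ℝ}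
    (ha : Summable a) (h0 : ∀ n, 0 ≤ a n) (τ η μ : ℝ) :
    Xi (cube M) (ham (fun p q => uh A a τ η p q * sb ℓ j p q) μ) ≤
      (Xi (Dblk ℓ 0 0) (ham (uh A a τ η) μ)) ^ (Tset ℓ M).card := by
  have hmeas : Measurable (fun p : E3 × E3 => uh A a τ η p.1 p.2 * sb ℓ j p.1 p.2) :=
    (measurable_uh A ha h0 τ η).mul (measurable_sb ℓ j)
  refine (Xi_mono (cube_subset_blocks hℓ hj M) (measurableSet_cube M) (fun ω _ => le_rfl)).trans ?_
  rw [Xi_biUnion (Tset ℓ M) (fun k => Dblk ℓ j k) (fun k => measurableSet_Dblk ℓ j k) ?_ hmeas μ ?_]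
  · rw [← Finset.prod_const]
    refine Finset.prod_le_prod' fun k _ => ?_
    rw [← Xi_Dblk_eq hℓ j k A ha h0 τ η μ]
    refine Xi_mono le_rfl (measurableSet_Dblk ℓ j k) fun ω hω => ?_
    unfold ham
    refine add_le_add (le_of_eq ?_) le_rfl
    refine V_congr _ fun p q _ => ?_
    have hp : blk ℓ j (ω.2 p) = k := hω p
    have hq : blk ℓ j (ω.2 q) = k := hω q
    simp [sb, hp, hq]
  · intro s _ t _ hst
    rw [Set.disjoint_left]
    intro x hx hx'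
    exact hst ((show blk ℓ j x = s from hx).symm.trans hx')
  · intro s _ t _ hst x hx y hy
    have hp : blk ℓ j x = s := hx
    have hq : blk ℓ j y = t := hy
    simp [sb, hp, hq, hst]

theorem Xi_decouple {A : ℝ} (hA : 0 ≤ A) {a : ℕ → ℝ} (ha : Summable a) (h0 : ∀ n, 0 ≤ a n)
    {ℓ : ℕ} (hℓ : 0 < ℓ) {t : ℝ} (ht : 0 ≤ t) (m : ℕ) (μ M : ℝ) :
    Xi (cube M) (ham (uu A (fun n => a n + if n = m then t else 0)) μ) ≤
      (Xi (Dblk ℓ 0 0) (ham (uh A a (t * kap ℓ m) (eta a ℓ))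
        (μ + t * kap ℓ m / 2 + eta a ℓ / 2))) ^ (Tset ℓ M).card := by
  have hl : (0 : ℝ) < ℓ := by exact_mod_cast hℓ
  set τ := t * kap ℓ m
  set η := eta a ℓ
  set μ' := μ + τ / 2 + η / 2
  have h1 : Xi (cube M) (ham (uu A (fun n => a n + if n = m then t else 0)) μ) ≤
      Xi (cube M) (fun ω => ∑ j ∈ Finset.range ℓ, (1 / (ℓ : ℝ)) *
        ham (fun p q => uh A a τ η p q * sb ℓ j p q) μ' ω) := by
    refine Xi_mono le_rfl (measurableSet_cube M) fun ω _ => ?_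
    have h2 := decouple_pointwise hA ha h0 hℓ ht m μ ω.2
    unfold ham
    rw [V_uu_add_single ha h0 m ht]
    rw [Fintype.card_fin] at h2
    exact h2
  refine h1.trans ?_
  refine (Xi_holder (Finset.range ℓ) (fun j => ham (fun p q => uh A a τ η p q * sb ℓ j p q) μ')
    (fun j _ => measurable_ham ((measurable_uh A ha h0 τ η).mul (measurable_sb ℓ j)) μ')
    (fun _ => 1 / (ℓ : ℝ)) (fun j _ => by positivity) (by simp; field_simp)).trans ?_
  calc ∏ j ∈ Finset.range ℓ, (Xi (cube M) (ham (fun p q => uh A a τ η p q * sb ℓ j p q) μ')) ^ (1 / (ℓ : ℝ))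
      ≤ ∏ j ∈ Finset.range ℓ, ((Xi (Dblk ℓ 0 0) (ham (uh A a τ η) μ')) ^ (Tset ℓ M).card) ^ (1 / (ℓ : ℝ)) := by
        refine Finset.prod_le_prod' fun j hj => ?_
        exact ENNReal.rpow_le_rpow (Xi_cube_le_blocks hℓ (Finset.mem_range.1 hj) M A ha h0 τ η μ')
          (by positivity)
    _ = (Xi (Dblk ℓ 0 0) (ham (uh A a τ η) μ')) ^ (Tset ℓ M).card := by
        rw [Finset.prod_const, Finset.card_range, ← ENNReal.rpow_natCast _ ℓ, ← ENNReal.rpow_mul]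
        have : (1 / (ℓ : ℝ)) * ℓ = 1 := by field_simp
        rw [this, ENNReal.rpow_one]

end Vale.Agent.P171
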