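import Mathlib
import Vale.Agent.P171.Blocks

set_option autoImplicit false
set_option linter.unusedSectionVars false

open MeasureTheory Set Filter Topology
open scoped ENNReal BigOperators

namespace Vale.Agent.P171

lemma volume_cube (M : ℝ) (hM : 0 ≤ M) : volume (cube M) = ENNReal.ofReal (M ^ 3) := by
  have h := (PiLp.volume_preserving_ofLp (Fin 3)).measure_preimage
    (s := Set.pi Set.univ (fun _ : Fin 3 => Set.Icc (0 : ℝ) M))
    (MeasurableSet.univ_pi fun _ => measurableSet_Icc).nullMeasurableSet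
  have e : (WithLp.ofLp ⁻¹' (Set.pi Set.univ (fun _ : Fin 3 => Set.Icc (0 : ℝ) M)) : Set E3) = cube M := by
    ext x
    constructor
    · intro hx i
      exact hx i (Set.mem_univ i)
    · intro hx i _
      exact hx i
  rw [e] at h
  rw [h, volume_pi_pi]
  simp only [Real.volume_Icc, sub_zero, Finset.prod_const, Finset.card_univ, Fintype.card_fin]
  rw [← ENNReal.ofReal_pow hM]

/-- log of the grand canonical partition function of the cube -/
noncomputable def gg (A : ℝ) (a : ℕ → ℝ) (μ M : ℝ) : ℝ :=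
  Real.log (Xi (cube M) (ham (uu A a) μ)).toReal

structure Good (A : ℝ) (a : ℕ → ℝ) : Prop where
  A0 : 0 ≤ A
  sum : Summable a
  nonneg : ∀ n, 0 ≤ a n
  le : 27 * ∑' n, a n ≤ A

lemma ham_uu_le {A : ℝ} {a : ℕ → ℝ} (h : Good A a) (μ : ℝ) (ω : Conf E3) :
    ham (uu A a) μ ω ≤ (μ + A / 2) * ω.1 := by
  have h1 := V_uu_le h.A0 h.sum h.nonneg ω.2
  have h2 := SS_nonneg ω.2
  have h3 := h.le
  rw [Fintype.card_fin] at h1
  unfold ham
  have h4 : 0 ≤ (A - 27 * ∑' n, a n) * SS ω.2 := mul_nonneg (by linarith) h2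
  nlinarith

lemma Xi_cube_le {A : ℝ} {a : ℕ → ℝ} (h : Good A a) (μ : ℝ) {M : ℝ} (hM : 0 ≤ M) :
    Xi (cube M) (ham (uu A a) μ) ≤ ENNReal.ofReal (Real.exp (Real.exp (μ + A / 2) * M ^ 3)) :=
  Xi_le_ideal (measurableSet_cube M) (measurable_uu A h.sum h.nonneg) μ _ (M ^ 3) (by positivity)
    (volume_cube M hM).le (fun ω _ => ham_uu_le h μ ω)

lemma Xi_cube_ne_top {A : ℝ} {a : ℕ → ℝ} (h : Good A a) (μ : ℝ) {M : ℝ} (hM : 0 ≤ M) :
    Xi (cube M) (ham (uu A a) μ) ≠ ⊤ :=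
  ne_top_of_le_ne_top ENNReal.ofReal_ne_top (Xi_cube_le h μ hM)

/-- real-log facts -/
lemma log_toReal_mono {x y : ℝ≥0∞} (hx : 1 ≤ x) (hy : y ≠ ⊤) (hxy : x ≤ y) :
    Real.log x.toReal ≤ Real.log y.toReal := by
  have hx' : x ≠ ⊤ := ne_top_of_le_ne_top hy hxy
  have h1 : (0 : ℝ) < x.toReal := by
    have : (1 : ℝ) ≤ x.toReal := by
      have := ENNReal.toReal_mono hx' hx
      simpa using this
    linarith
  exact Real.log_le_log h1 (ENNReal.toReal_mono hy hxy)

lemma log_toReal_nonneg {x : ℝ≥0∞} (hx : 1 ≤ x) (hx' : x ≠ ⊤) : 0 ≤ Real.log x.toReal := by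
  have := log_toReal_mono le_rfl hx' hx
  simpa using this

lemma log_toReal_pow {x : ℝ≥0∞} (n : ℕ) : Real.log (x ^ n).toReal = n * Real.log x.toReal := by
  rw [ENNReal.toReal_pow, Real.log_pow]

lemma gg_nonneg {A : ℝ} {a : ℕ → ℝ} (h : Good A a) (μ : ℝ) {M : ℝ} (hM : 0 ≤ M) :
    0 ≤ gg A a μ M :=
  log_toReal_nonneg (one_le_Xi (measurableSet_cube M) (measurable_uu A h.sum h.nonneg) μ)
    (Xi_cube_ne_top h μ hM)

lemma gg_le {A : ℝ} {a : ℕ → ℝ} (h : Good A a) (μ : ℝ) {M : ℝ} (hM : 0 ≤ M) :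
    gg A a μ M ≤ Real.exp (μ + A / 2) * M ^ 3 := by
  have h1 := log_toReal_mono (one_le_Xi (measurableSet_cube M) (measurable_uu A h.sum h.nonneg) μ)
    ENNReal.ofReal_ne_top (Xi_cube_le h μ hM)
  rw [ENNReal.toReal_ofReal (Real.exp_pos _).le, Real.log_exp] at h1
  exact h1

lemma cube_mono {M M' : ℝ} (h : M ≤ M') : cube M ⊆ cube M' :=
  fun _ hx i => ⟨(hx i).1, (hx i).2.trans h⟩

lemma gg_mono {A : ℝ} {a : ℕ → ℝ} (h : Good A a) (μ : ℝ) {M M' : ℝ} (hM : 0 ≤ M) (hMM : M ≤ M') :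
    gg A a μ M ≤ gg A a μ M' :=
  log_toReal_mono (one_le_Xi (measurableSet_cube M) (measurable_uu A h.sum h.nonneg) μ)
    (Xi_cube_ne_top h μ (hM.trans hMM))
    (Xi_mono (cube_mono hMM) (measurableSet_cube M) fun _ _ => le_rfl)

/-! ### superadditivity -/

def Box (L : ℕ) (t : Z3) : Set E3 :=
  {x | ∀ i, (t i : ℝ) * ((L : ℝ) + 2) ≤ x i ∧ x i ≤ (t i : ℝ) * ((L : ℝ) + 2) + L}

lemma measurableSet_Box (L : ℕ) (t : Z3) : MeasurableSet (Box L t) := by
  have : Box L t = ⋂ i, {x : E3 | (t i : ℝ) * ((L : ℝ) + 2) ≤ x i ∧ x i ≤ (t i : ℝ) * ((L : ℝ) + 2) + L} := by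
    ext x; simp [Box]
  rw [this]
  refine MeasurableSet.iInter fun i => ?_
  exact (measurableSet_le measurable_const (measurable_coord i)).inter
    (measurableSet_le (measurable_coord i) measurable_const)

lemma blk_of_Box {L : ℕ} {t : Z3} {x : E3} (hx : x ∈ Box L t) : blk (L + 2) 0 x = t := by
  funext i
  have h := hx i
  have hl : (0 : ℤ) < ((L + 2 : ℕ) : ℤ) := by positivity
  unfold blk
  rw [Int.ediv_eq_iff_of_pos hl]
  constructor
  · have : ((t i * ((L + 2 : ℕ) : ℤ) : ℤ) : ℝ) ≤ x i := by push_cast; exact h.1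
    have := Int.le_floor.2 this
    push_cast at this ⊢
    linarith
  · have : x i < ((t i * ((L + 2 : ℕ) : ℤ) + L + 1 : ℤ) : ℝ) := by push_cast; linarith [h.2]
    have := Int.floor_lt.2 this
    push_cast at this ⊢
    linarith

lemma dist_Box {L : ℕ} {s t : Z3} (hst : s ≠ t) {x y : E3} (hx : x ∈ Box L s) (hy : y ∈ Box L t) :
    2 ≤ dist x y := by
  obtain ⟨i, hi⟩ : ∃ i, s i ≠ t i := by
    by_contra hcon
    exact hst (funext fun i => by by_contra hi; exact hcon ⟨i, hi⟩)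
  refine le_trans ?_ (abs_coord_le x y i)
  have hx' := hx i
  have hy' := hy i
  have hL : (0 : ℝ) ≤ L := Nat.cast_nonneg L
  rcases lt_or_gt_of_ne hi with h | h
  · have h1 : (s i : ℝ) + 1 ≤ t i := by exact_mod_cast h
    have h2 : ((s i : ℝ) + 1) * ((L : ℝ) + 2) ≤ t i * ((L : ℝ) + 2) :=
      mul_le_mul_of_nonneg_right h1 (by positivity)
    rw [abs_sub_comm]
    refine le_trans ?_ (le_abs_self _)
    nlinarith
  · have h1 : (t i : ℝ) + 1 ≤ s i := by exact_mod_cast h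
    have h2 : ((t i : ℝ) + 1) * ((L : ℝ) + 2) ≤ s i * ((L : ℝ) + 2) :=
      mul_le_mul_of_nonneg_right h1 (by positivity)
    refine le_trans ?_ (le_abs_self _)
    nlinarith

lemma Xi_Box_eq (L : ℕ) (t : Z3) {A : ℝ} {a : ℕ → ℝ} (h : Good A a) (μ : ℝ) :
    Xi (Box L t) (ham (uu A a) μ) = Xi (cube L) (ham (uu A a) μ) := by
  set v : E3 := WithLp.toLp 2 (fun i => (t i : ℝ) * ((L : ℝ) + 2)) with hv
  have hvi : ∀ i, v i = (t i : ℝ) * ((L : ℝ) + 2) := fun i => rfl
  rw [← Xi_preimage (measurableSet_Box L t) (fun x => x + v) (measurePreserving_add_right volume v)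
    (measurable_uu A h.sum h.nonneg) μ (fun x y => by unfold uu core; rw [dist_add_right_E3])]
  congr 1
  ext x
  simp only [Box, cube, Set.mem_preimage, Set.mem_ofPred_eq]
  refine forall_congr' fun i => ?_
  have : (x + v) i = x i + v i := rfl
  rw [this, hvi]
  constructor
  · rintro ⟨h1, h2⟩; constructor <;> linarith
  · rintro ⟨h1, h2⟩; constructor <;> linarith

lemma uu_nonneg_of_far {A : ℝ} {a : ℕ → ℝ} (h : Good A a) {x y : E3} (hd : 2 ≤ dist x y) :
    0 ≤ uu A a x y := by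
  unfold uu core
  rw [if_neg (not_lt.2 hd)]
  have := psi_nonneg h.nonneg (dist x y)
  linarith

theorem Xi_super {A : ℝ} {a : ℕ → ℝ} (h : Good A a) (μ : ℝ) (L k : ℕ) {M : ℝ}
    (hM : (k : ℝ) * ((L : ℝ) + 2) ≤ M) :
    (Xi (cube L) (ham (uu A a) μ)) ^ (k ^ 3) ≤ Xi (cube M) (ham (uu A a) μ) := by
  classical
  set T : Finset Z3 := Fintype.piFinset (fun _ => Finset.Ico (0 : ℤ) k) with hT
  have hcard : T.card = k ^ 3 := by
    rw [hT, Fintype.card_piFinset_const, Int.card_Ico]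
    simp
  have hsub : (⋃ t ∈ T, Box L t) ⊆ cube M := by
    intro x hx
    rw [Set.mem_iUnion₂] at hx
    obtain ⟨t, ht, hx⟩ := hx
    intro i
    have h1 := hx i
    have h2 := Finset.mem_Ico.1 (Fintype.mem_piFinset.1 ht i)
    have h3 : (0 : ℝ) ≤ t i := by exact_mod_cast h2.1
    have h4 : (t i : ℝ) + 1 ≤ k := by exact_mod_cast h2.2
    have hL : (0 : ℝ) ≤ L := Nat.cast_nonneg L
    constructor
    · exact le_trans (by positivity) h1.1
    · have h5 : ((t i : ℝ) + 1) * ((L : ℝ) + 2) ≤ k * ((L : ℝ) + 2) :=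
        mul_le_mul_of_nonneg_right h4 (by positivity)
      nlinarith [h1.2]
  have hmeas : Measurable (fun p : E3 × E3 => uu A a p.1 p.2 * sb (L + 2) 0 p.1 p.2) :=
    (measurable_uu A h.sum h.nonneg).mul (measurable_sb (L + 2) 0)
  have hU : MeasurableSet (⋃ t ∈ T, Box L t) :=
    Finset.measurableSet_biUnion T fun t _ => measurableSet_Box L t
  calc (Xi (cube L) (ham (uu A a) μ)) ^ (k ^ 3)
      = ∏ t ∈ T, Xi (Box L t) (ham (fun p q => uu A a p q * sb (L + 2) 0 p q) μ) := by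
        rw [← hcard, ← Finset.prod_const]
        refine Finset.prod_congr rfl fun t _ => ?_
        rw [← Xi_Box_eq L t h μ]
        apply le_antisymm
        · refine Xi_mono le_rfl (measurableSet_Box L t) fun ω hω => ?_
          unfold ham
          refine add_le_add (le_of_eq ?_) le_rfl
          refine V_congr _ fun p q _ => ?_
          simp [sb, blk_of_Box (hω p), blk_of_Box (hω q)]
        · refine Xi_mono le_rfl (measurableSet_Box L t) fun ω hω => ?_
          unfold ham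
          refine add_le_add (le_of_eq ?_) le_rfl
          refine V_congr _ fun p q _ => ?_
          simp [sb, blk_of_Box (hω p), blk_of_Box (hω q)]
    _ = Xi (⋃ t ∈ T, Box L t) (ham (fun p q => uu A a p q * sb (L + 2) 0 p q) μ) := by
        rw [Xi_biUnion T (fun t => Box L t) (fun t => measurableSet_Box L t) ?_ hmeas μ ?_]
        · intro s _ t _ hst
          rw [Set.disjoint_left]
          intro x hx hx'
          exact hst ((blk_of_Box hx).symm.trans (blk_of_Box hx'))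
        · intro s _ t _ hst x hx y hy
          simp [sb, blk_of_Box hx, blk_of_Box hy, hst]
    _ ≤ Xi (⋃ t ∈ T, Box L t) (ham (uu A a) μ) := by
        refine Xi_mono le_rfl hU fun ω hω => ?_
        unfold ham
        refine add_le_add ?_ le_rfl
        refine V_mono _ fun p q _ => ?_
        have hp := hω p
        have hq := hω q
        rw [Set.mem_iUnion₂] at hp hq
        obtain ⟨s, _, hp⟩ := hp
        obtain ⟨t, _, hq⟩ := hq
        by_cases hst : s = t
        · subst hst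
          simp [sb, blk_of_Box hp, blk_of_Box hq]
        · simp only [sb, blk_of_Box hp, blk_of_Box hq, hst, if_false, mul_zero]
          exact uu_nonneg_of_far h (dist_Box hst hp hq)
    _ ≤ Xi (cube M) (ham (uu A a) μ) := Xi_mono hsub hU fun _ _ => le_rfl

lemma gg_super {A : ℝ} {a : ℕ → ℝ} (h : Good A a) (μ : ℝ) (L k : ℕ) {M : ℝ}
    (hM : (k : ℝ) * ((L : ℝ) + 2) ≤ M) :
    (k : ℝ) ^ 3 * gg A a μ L ≤ gg A a μ M := by
  have hM0 : 0 ≤ M := le_trans (by positivity) hM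
  have h1 := log_toReal_mono (one_le_pow₀ (one_le_Xi (measurableSet_cube (L : ℝ))
    (measurable_uu A h.sum h.nonneg) μ) (n := k ^ 3)) (Xi_cube_ne_top h μ hM0) (Xi_super h μ L k hM)
  rw [log_toReal_pow] at h1
  push_cast at h1
  exact h1

/-- the pressure -/
noncomputable def PP (A : ℝ) (a : ℕ → ℝ) (μ : ℝ) : ℝ := ⨆ L : ℕ, gg A a μ L / ((L : ℝ) + 2) ^ 3

lemma PP_bdd {A : ℝ} {a : ℕ → ℝ} (h : Good A a) (μ : ℝ) :
    BddAbove (Set.range (fun L : ℕ => gg A a μ L / ((L : ℝ) + 2) ^ 3)) := by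
  refine ⟨Real.exp (μ + A / 2), ?_⟩
  rintro _ ⟨L, rfl⟩
  have hL : (0 : ℝ) ≤ L := Nat.cast_nonneg L
  simp only
  rw [div_le_iff₀ (by positivity)]
  refine (gg_le h μ hL).trans ?_
  refine mul_le_mul_of_nonneg_left ?_ (Real.exp_pos _).le
  exact pow_le_pow_left₀ hL (by linarith) 3

lemma PP_le {A : ℝ} {a : ℕ → ℝ} (h : Good A a) (μ : ℝ) : PP A a μ ≤ Real.exp (μ + A / 2) := by
  refine ciSup_le fun L => ?_
  have hL : (0 : ℝ) ≤ L := Nat.cast_nonneg L
  rw [div_le_iff₀ (by positivity)]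
  refine (gg_le h μ hL).trans ?_
  refine mul_le_mul_of_nonneg_left ?_ (Real.exp_pos _).le
  exact pow_le_pow_left₀ hL (by linarith) 3

lemma gg_le_PP {A : ℝ} {a : ℕ → ℝ} (h : Good A a) (μ : ℝ) (L : ℕ) :
    gg A a μ L ≤ PP A a μ * ((L : ℝ) + 2) ^ 3 := by
  have hL : (0 : ℝ) ≤ L := Nat.cast_nonneg L
  have := le_ciSup (PP_bdd h μ) L
  rwa [div_le_iff₀ (by positivity)] at this

lemma PP_nonneg {A : ℝ} {a : ℕ → ℝ} (h : Good A a) (μ : ℝ) : 0 ≤ PP A a μ := by
  have := le_ciSup (PP_bdd h μ) 0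
  refine le_trans ?_ this
  have := gg_nonneg h μ (M := ((0 : ℕ) : ℝ)) (by simp)
  exact div_nonneg this (by positivity)

theorem PP_tendsto {A : ℝ} {a : ℕ → ℝ} (h : Good A a) (μ : ℝ) :
    Tendsto (fun M : ℝ => gg A a μ M / M ^ 3) atTop (𝓝 (PP A a μ)) := by
  have hup : ∀ᶠ M : ℝ in atTop, gg A a μ M / M ^ 3 ≤ PP A a μ * (1 + 3 / M) ^ 3 := by
    filter_upwards [eventually_gt_atTop 0] with M hM
    have h1 : gg A a μ M ≤ gg A a μ (⌈M⌉₊ : ℝ) := gg_mono h μ hM.le (Nat.le_ceil M)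
    have h2 := gg_le_PP h μ ⌈M⌉₊
    have h3 : ((⌈M⌉₊ : ℝ) + 2) ^ 3 ≤ (M + 3) ^ 3 := by
      refine pow_le_pow_left₀ (by positivity) ?_ 3
      have := (Nat.ceil_lt_add_one hM.le).le
      linarith
    rw [div_le_iff₀ (by positivity)]
    have h4 : (1 + 3 / M) ^ 3 * M ^ 3 = (M + 3) ^ 3 := by
      rw [← mul_pow]; congr 1; field_simp
    rw [mul_assoc, h4]
    exact h1.trans (h2.trans (mul_le_mul_of_nonneg_left h3 (PP_nonneg h μ)))
  have hlim1 : Tendsto (fun M : ℝ => PP A a μ * (1 + 3 / M) ^ 3) atTop (𝓝 (PP A a μ)) := by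
    have : Tendsto (fun M : ℝ => 3 / M) atTop (𝓝 0) := tendsto_const_nhds.div_atTop tendsto_id
    have h2 : Tendsto (fun M : ℝ => PP A a μ * (1 + 3 / M) ^ 3) atTop
        (𝓝 (PP A a μ * (1 + 0) ^ 3)) := ((tendsto_const_nhds.add this).pow 3).const_mul _
    simpa using h2
  rw [tendsto_order]
  constructor
  · intro b hb
    obtain ⟨L, hL⟩ := exists_lt_of_lt_ciSup hb
    have hlow : ∀ᶠ M : ℝ in atTop, (1 / ((L : ℝ) + 2) - 1 / M) ^ 3 * gg A a μ L ≤ gg A a μ M / M ^ 3 := by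
      filter_upwards [eventually_ge_atTop ((L : ℝ) + 2)] with M hM
      have hL2 : (0 : ℝ) < (L : ℝ) + 2 := by positivity
      have hM0 : 0 < M := lt_of_lt_of_le hL2 hM
      set k := ⌊M / ((L : ℝ) + 2)⌋₊ with hk
      have hk1 : (k : ℝ) * ((L : ℝ) + 2) ≤ M := by
        have := Nat.floor_le (div_nonneg hM0.le hL2.le)
        rwa [← hk, le_div_iff₀ hL2] at this
      have hk2 : M / ((L : ℝ) + 2) - 1 ≤ k := by
        have := Nat.lt_floor_add_one (M / ((L : ℝ) + 2))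
        rw [← hk] at this
        linarith
      have h1 := gg_super h μ L k hk1
      have hg := gg_nonneg h μ (M := (L : ℝ)) (Nat.cast_nonneg L)
      have h3 : 0 ≤ M / ((L : ℝ) + 2) - 1 := by
        rw [sub_nonneg, le_div_iff₀ hL2]; linarith
      have h4 : (M / ((L : ℝ) + 2) - 1) ^ 3 * gg A a μ L ≤ gg A a μ M :=
        (mul_le_mul_of_nonneg_right (pow_le_pow_left₀ h3 hk2 3) hg).trans h1
      rw [le_div_iff₀ (by positivity)]
      refine le_trans (le_of_eq ?_) h4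
      have : (1 / ((L : ℝ) + 2) - 1 / M) ^ 3 * M ^ 3 = (M / ((L : ℝ) + 2) - 1) ^ 3 := by
        rw [← mul_pow]; congr 1; field_simp
      rw [← this]; ring
    have hlim2 : Tendsto (fun M : ℝ => (1 / ((L : ℝ) + 2) - 1 / M) ^ 3 * gg A a μ L) atTop
        (𝓝 ((1 / ((L : ℝ) + 2) - 0) ^ 3 * gg A a μ L)) := by
      have : Tendsto (fun M : ℝ => 1 / M) atTop (𝓝 0) := tendsto_const_nhds.div_atTop tendsto_id
      exact ((tendsto_const_nhds.sub this).pow 3).mul_const _
    have e : (1 / ((L : ℝ) + 2) - 0) ^ 3 * gg A a μ L = gg A a μ L / ((L : ℝ) + 2) ^ 3 := by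
      rw [sub_zero, one_div, inv_pow]; ring
    rw [e] at hlim2
    filter_upwards [hlow, hlim2.eventually_const_lt hL] with M h1 h2
    exact lt_of_lt_of_le h2 h1
  · intro b hb
    filter_upwards [hup, hlim1.eventually_lt_const hb] with M h1 h2
    exact lt_of_le_of_lt h1 h2

end Vale.Agent.P171
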