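import Mathlib
import Vale.Agent.P171.Press

set_option autoImplicit false
set_option linter.unusedSectionVars false

open MeasureTheory Set Filter Topology
open scoped ENNReal BigOperators

namespace Vale.Agent.P171

/-- unit cell with index `3 t` -/
def C3 (t : Z3) : Set E3 := {x | cell x = fun i => 3 * t i}

lemma C3_bounds {t : Z3} {x : E3} (hx : x ∈ C3 t) (i : Fin 3) :
    3 * (t i : ℝ) ≤ x i ∧ x i < 3 * (t i : ℝ) + 1 := by
  have h : ⌊x i⌋ = 3 * t i := congrFun hx i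
  have h1 := Int.floor_le (x i)
  have h2 := Int.lt_floor_add_one (x i)
  rw [h] at h1 h2
  push_cast at h1 h2
  exact ⟨h1, h2⟩

lemma measurableSet_C3 (t : Z3) : MeasurableSet (C3 t) :=
  measurable_cell (measurableSet_singleton _)

lemma volume_C3 (t : Z3) : volume (C3 t) = 1 := by
  have h := (PiLp.volume_preserving_ofLp (Fin 3)).measure_preimage
    (s := Set.pi Set.univ (fun i : Fin 3 => Set.Ico (3 * (t i : ℝ)) (3 * (t i : ℝ) + 1)))
    (MeasurableSet.univ_pi fun _ => measurableSet_Ico).nullMeasurableSet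
  have e : (WithLp.ofLp ⁻¹' (Set.pi Set.univ
      (fun i : Fin 3 => Set.Ico (3 * (t i : ℝ)) (3 * (t i : ℝ) + 1))) : Set E3) = C3 t := by
    ext x
    constructor
    · intro hx
      funext i
      have h1 := hx i (Set.mem_univ i)
      have : ⌊x i⌋ = 3 * t i := by
        rw [Int.floor_eq_iff]
        push_cast
        exact ⟨h1.1, h1.2⟩
      exact this
    · intro hx i _
      exact C3_bounds hx i
  rw [e] at h
  rw [h, volume_pi_pi]
  simp

lemma C3_far {s t : Z3} (hst : s ≠ t) {x y : E3} (hx : x ∈ C3 s) (hy : y ∈ C3 t) :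
    2 ≤ dist x y := by
  obtain ⟨i, hi⟩ : ∃ i, s i ≠ t i := by
    by_contra hcon
    exact hst (funext fun i => by by_contra hi; exact hcon ⟨i, hi⟩)
  refine le_trans ?_ (abs_coord_le x y i)
  have hx' := C3_bounds hx i
  have hy' := C3_bounds hy i
  rcases lt_or_gt_of_ne hi with h | h
  · have h1 : (s i : ℝ) + 1 ≤ t i := by exact_mod_cast h
    rw [abs_sub_comm]
    refine le_trans ?_ (le_abs_self _)
    linarith
  · have h1 : (t i : ℝ) + 1 ≤ s i := by exact_mod_cast h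
    refine le_trans ?_ (le_abs_self _)
    linarith

lemma C3_near {s t : Z3} {r : ℝ} (hr : 0 ≤ r) (hst : t - s ∈ latBall r) {x y : E3} (hx : x ∈ C3 s)
    (hy : y ∈ C3 t) : dist x y ≤ 3 * r + 2 := by
  set v : E3 := WithLp.toLp 2 (fun i => 3 * ((t - s) i : ℝ)) with hv
  have hvi : ∀ i, v i = 3 * ((t - s) i : ℝ) := fun i => rfl
  have h1 : ‖(y - x) - v‖ ≤ 2 := by
    have h2 : ‖(y - x) - v‖ ^ 2 ≤ 2 ^ 2 := by
      rw [EuclideanSpace.norm_sq_eq, Fin.sum_univ_three]
      have h3 : ∀ i, ‖((y - x) - v) i‖ ^ 2 ≤ 1 := by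
        intro i
        have bx := C3_bounds hx i
        have by' := C3_bounds hy i
        have e : ((y - x) - v) i = (y i - x i) - 3 * ((t i : ℝ) - (s i : ℝ)) := by
          have : ((y - x) - v) i = (y i - x i) - v i := rfl
          rw [this, hvi]
          simp
        rw [e, Real.norm_eq_abs, sq_abs]
        refine le_trans (sq_le_sq' (b := (1 : ℝ)) ?_ ?_) (by norm_num)
        · linarith [bx.1, bx.2, by'.1, by'.2]
        · linarith [bx.1, bx.2, by'.1, by'.2]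
      nlinarith [h3 0, h3 1, h3 2]
    exact le_of_sq_le_sq h2 (by norm_num)
  have h4 : ‖v‖ ≤ 3 * r := by
    have h5 : ‖v‖ ^ 2 ≤ (3 * r) ^ 2 := by
      rw [EuclideanSpace.norm_sq_eq]
      have h6 : ∑ i, ‖v i‖ ^ 2 = 9 * ∑ i, ((t - s) i : ℝ) ^ 2 := by
        rw [Finset.mul_sum]
        refine Finset.sum_congr rfl fun i _ => ?_
        rw [hvi, Real.norm_eq_abs, sq_abs]; ring
      rw [h6]
      have : (∑ i, ((t - s) i : ℝ) ^ 2) ≤ r ^ 2 := hst
      nlinarith
    exact le_of_sq_le_sq h5 (by positivity)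
  rw [dist_comm, dist_eq_norm]
  calc ‖y - x‖ = ‖((y - x) - v) + v‖ := by rw [sub_add_cancel]
    _ ≤ ‖(y - x) - v‖ + ‖v‖ := norm_add_le _ _
    _ ≤ 2 + 3 * r := add_le_add h1 h4
    _ = 3 * r + 2 := by ring

/-- number of nonzero lattice vectors of norm at most `(n-1)/3` -/
noncomputable def Nn (n : ℕ) : ℕ := (latBall (((n : ℝ) - 1) / 3) \ {0}).ncard

noncomputable def Tk (k : ℕ) : Finset Z3 := Fintype.piFinset (fun _ => Finset.Ico (0 : ℤ) k)

lemma Tk_card (k : ℕ) : (Tk k).card = k ^ 3 := by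
  unfold Tk
  rw [Fintype.card_piFinset_const, Int.card_Ico]
  simp

lemma latBall_sub_bound {n : ℕ} {b : Z3} (hb : b ∈ latBall (((n : ℝ) - 1) / 3)) (i : Fin 3) :
    -(n : ℤ) ≤ b i ∧ b i ≤ n := by
  have h0 : (∑ i, (b i : ℝ) ^ 2) ≤ (((n : ℝ) - 1) / 3) ^ 2 := hb
  have h1 : (b i : ℝ) ^ 2 ≤ (((n : ℝ) - 1) / 3) ^ 2 :=
    (Finset.single_le_sum (f := fun i => (b i : ℝ) ^ 2) (fun i _ => sq_nonneg _)
      (Finset.mem_univ i)).trans h0
  have h2 : (((n : ℝ) - 1) / 3) ^ 2 < ((n : ℝ) + 1) ^ 2 := by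
    have : (0 : ℝ) ≤ n := Nat.cast_nonneg n
    nlinarith
  have h3 : |(b i : ℝ)| < (n : ℝ) + 1 := by
    apply abs_lt_of_sq_lt_sq (lt_of_le_of_lt h1 h2) (by positivity)
  rw [abs_lt] at h3
  constructor
  · have : (-(n : ℤ) - 1 : ℤ) < b i := by
      have : (((-(n : ℤ) - 1 : ℤ)) : ℝ) < (b i : ℝ) := by push_cast; linarith [h3.1]
      exact_mod_cast this
    omega
  · have : b i < (n : ℤ) + 1 := by
      have : (b i : ℝ) < (((n : ℤ) + 1 : ℤ) : ℝ) := by push_cast; exact h3.2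
      exact_mod_cast this
    omega

lemma latBall_finite' (r : ℝ) : (latBall r).Finite := by
  have : latBall r = latBall |r| := by unfold latBall; simp
  rw [this]
  exact latBall_finite _ (abs_nonneg r)

/-- pair count for one particle per cell -/
lemma trial_V {k n : ℕ} (hk : 2 * n ≤ k) {ι : Type} [Fintype ι] (σ : ι ≃ {t // t ∈ Tk k}) (x : ι → E3)
    (hx : ∀ i, x i ∈ C3 (σ i)) :
    (1/2) * (((n : ℝ) + 1) ^ 3)⁻¹ * ((Nn n : ℝ) * ((k : ℝ) - 2 * n) ^ 3) ≤
      V (fun a b => wr n (dist a b)) x := by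
  classical
  set Bf : Finset Z3 := ((latBall_finite' (((n : ℝ) - 1) / 3)).sdiff (t := {0})).toFinset with hBf
  have hBcard : Bf.card = Nn n := by
    unfold Nn
    rw [Set.ncard_eq_toFinset_card _ ((latBall_finite' (((n : ℝ) - 1) / 3)).sdiff)]
  have hBmem : ∀ b, b ∈ Bf ↔ b ∈ latBall (((n : ℝ) - 1) / 3) ∧ b ≠ 0 := by
    intro b
    rw [hBf, Set.Finite.mem_toFinset]
    simp
  -- inner box
  set Tin : Finset Z3 := Fintype.piFinset (fun _ => Finset.Ico (n : ℤ) (k - n)) with hTin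
  have hTin_card : (Tin.card : ℝ) = ((k : ℝ) - 2 * n) ^ 3 := by
    rw [hTin, Fintype.card_piFinset_const, Int.card_Ico]
    push_cast
    congr 1
    have : (((k : ℤ) - n - n).toNat : ℤ) = (k : ℤ) - n - n := Int.toNat_of_nonneg (by omega)
    have h2 : ((((k : ℤ) - n - n).toNat : ℕ) : ℝ) = (((k : ℤ) - n - n : ℤ) : ℝ) := by
      exact_mod_cast congrArg (fun z : ℤ => (z : ℝ)) this
    rw [h2]
    push_cast
    ring
  have hmem : ∀ s ∈ Tin, ∀ b ∈ Bf, s + b ∈ Tk k := by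
    intro s hs b hb
    unfold Tk
    rw [Fintype.mem_piFinset]
    intro i
    have h1 := Finset.mem_Ico.1 (Fintype.mem_piFinset.1 hs i)
    have h2 := latBall_sub_bound ((hBmem b).1 hb).1 i
    rw [Finset.mem_Ico, Pi.add_apply]
    constructor
    · linarith [h1.1, h2.1]
    · linarith [h1.2, h2.2]
  have hTsub : Tin ⊆ Tk k := by
    intro s hs
    unfold Tk
    rw [Fintype.mem_piFinset]
    intro i
    have h1 := Finset.mem_Ico.1 (Fintype.mem_piFinset.1 hs i)
    rw [Finset.mem_Ico]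
    constructor
    · have : (0 : ℤ) ≤ n := by positivity
      linarith [h1.1]
    · have : (0 : ℤ) ≤ n := by positivity
      linarith [h1.2]
  -- the pair function in terms of cells
  have key : ∀ i j : ι, i ≠ j → (if ((σ j : Z3) - σ i) ∈ Bf then (1 : ℝ) else 0) ≤
      near ((n : ℝ) + 1) (x i) (x j) := by
    intro i j hij
    by_cases hb : ((σ j : Z3) - σ i) ∈ Bf
    · rw [if_pos hb]
      unfold near
      have hn : 1 ≤ n := by
        by_contra hn
        have hn0 : n = 0 := by omega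
        obtain ⟨hb1, hb2⟩ := (hBmem _).1 hb
        subst hn0
        apply hb2
        have h0 : (∑ i', (((σ j : Z3) - σ i) i' : ℝ) ^ 2) ≤ ((((0 : ℕ) : ℝ) - 1) / 3) ^ 2 := hb1
        funext i'
        have h1 : (((σ j : Z3) - σ i) i' : ℝ) ^ 2 ≤ ((((0 : ℕ) : ℝ) - 1) / 3) ^ 2 :=
          (Finset.single_le_sum (f := fun i' => (((σ j : Z3) - σ i) i' : ℝ) ^ 2)
            (fun i _ => sq_nonneg _) (Finset.mem_univ i')).trans h0
        have h2 : |(((σ j : Z3) - σ i) i' : ℝ)| < 1 := by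
          apply abs_lt_of_sq_lt_sq _ (by norm_num)
          refine lt_of_le_of_lt h1 (by norm_num)
        have h3 : |(((σ j : Z3) - σ i) i')| < 1 := by exact_mod_cast h2
        have h4 : ((σ j : Z3) - σ i) i' = 0 := Int.abs_lt_one_iff.1 h3
        exact h4
      have hn' : (1 : ℝ) ≤ n := by exact_mod_cast hn
      rw [if_pos]
      refine (C3_near (r := ((n : ℝ) - 1) / 3) (by linarith) ((hBmem _).1 hb).1 (hx i) (hx j)).trans ?_
      linarith
    · rw [if_neg hb]
      exact near_nonneg _ _ _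
  have h1 : V (fun a b => wr n (dist a b)) x = (((n : ℝ) + 1) ^ 3)⁻¹ * V (near ((n : ℝ) + 1)) x := by
    rw [← V_smul]; rfl
  rw [h1]
  have h2 : (1/2) * ((Nn n : ℝ) * ((k : ℝ) - 2 * n) ^ 3) ≤ V (near ((n : ℝ) + 1)) x := by
    have h3 : (1/2) * ∑ i, ∑ j, (if ((σ j : Z3) - σ i) ∈ Bf then (1 : ℝ) else 0) ≤
        V (near ((n : ℝ) + 1)) x := by
      unfold V
      refine mul_le_mul_of_nonneg_left ?_ (by norm_num)
      refine Finset.sum_le_sum fun i _ => Finset.sum_le_sum fun j _ => ?_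
      by_cases hij : i = j
      · subst hij
        rw [if_pos rfl, if_neg]
        intro hb
        exact ((hBmem _).1 hb).2 (sub_self _)
      · rw [if_neg hij]
        exact key i j hij
    refine le_trans ?_ h3
    refine mul_le_mul_of_nonneg_left ?_ (by norm_num)
    -- reindex
    have h4 : ∑ i, ∑ j, (if ((σ j : Z3) - σ i) ∈ Bf then (1 : ℝ) else 0) =
        ∑ s ∈ Tk k, ∑ t ∈ Tk k, (if (t - s) ∈ Bf then (1 : ℝ) else 0) := by
      rw [← Finset.sum_coe_sort (Tk k)]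
      rw [← Equiv.sum_comp σ]
      refine Finset.sum_congr rfl fun i _ => ?_
      rw [← Finset.sum_coe_sort (Tk k)]
      rw [← Equiv.sum_comp σ]
    rw [h4]
    calc (Nn n : ℝ) * ((k : ℝ) - 2 * n) ^ 3 = ∑ s ∈ Tin, (Nn n : ℝ) := by
          rw [Finset.sum_const, nsmul_eq_mul, hTin_card]; ring
      _ ≤ ∑ s ∈ Tin, ∑ t ∈ Tk k, (if (t - s) ∈ Bf then (1 : ℝ) else 0) := by
          refine Finset.sum_le_sum fun s hs => ?_
          rw [Finset.sum_ite]
          simp only [Finset.sum_const_zero, add_zero, Finset.sum_const, nsmul_eq_mul, mul_one]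
          rw [← hBcard]
          have : (Bf.image (fun b => s + b)).card = Bf.card :=
            Finset.card_image_of_injective _ (fun b c h => by simpa using h)
          rw [← this]
          have h5 : Bf.image (fun b => s + b) ⊆ (Tk k).filter (fun t => t - s ∈ Bf) := by
            intro t ht
            obtain ⟨b, hb, rfl⟩ := Finset.mem_image.1 ht
            rw [Finset.mem_filter]
            refine ⟨hmem s hs b hb, ?_⟩
            simpa using hb
          exact_mod_cast Finset.card_le_card h5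
      _ ≤ ∑ s ∈ Tk k, ∑ t ∈ Tk k, (if (t - s) ∈ Bf then (1 : ℝ) else 0) :=
          Finset.sum_le_sum_of_subset_of_nonneg hTsub fun s _ _ =>
            Finset.sum_nonneg fun t _ => by split_ifs <;> norm_num
  calc (1/2) * (((n : ℝ) + 1) ^ 3)⁻¹ * ((Nn n : ℝ) * ((k : ℝ) - 2 * n) ^ 3)
      = (((n : ℝ) + 1) ^ 3)⁻¹ * ((1/2) * ((Nn n : ℝ) * ((k : ℝ) - 2 * n) ^ 3)) := by ring
    _ ≤ (((n : ℝ) + 1) ^ 3)⁻¹ * V (near ((n : ℝ) + 1)) x :=
        mul_le_mul_of_nonneg_left h2 (by positivity)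

/-- energy lower bound for trial configurations -/
lemma trial_ham {A : ℝ} {a : ℕ → ℝ} (h : Good A a) (μ : ℝ) {k n0 : ℕ} (hk : 2 * n0 ≤ k)
    {ι : Type} [Fintype ι] (σ : ι ≃ {t // t ∈ Tk k}) (x : ι → E3) (hx : ∀ i, x i ∈ C3 (σ i)) :
    μ * (k : ℝ) ^ 3 + ∑ n ∈ Finset.range (n0 + 1),
      a n * ((1/2) * (((n : ℝ) + 1) ^ 3)⁻¹ * ((Nn n : ℝ) * ((k : ℝ) - 2 * n) ^ 3)) ≤
      V (uu A a) x + μ * Fintype.card ι := by
  classical
  have hcard : (Fintype.card ι : ℝ) = (k : ℝ) ^ 3 := by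
    rw [Fintype.card_congr σ, Fintype.card_coe, Tk_card]
    push_cast; rfl
  have h1 : V (fun p q => psi a (dist p q)) x ≤ V (uu A a) x := by
    refine V_mono x fun i j hij => ?_
    unfold uu core
    rw [if_neg]
    · simp
    · rw [not_lt]
      refine C3_far ?_ (hx i) (hx j)
      intro hs
      exact hij (σ.injective (Subtype.ext hs))
  have h2 := V_psi_hasSum h.sum h.nonneg x
  have h3 : ∑ n ∈ Finset.range (n0 + 1), a n * V (fun a b => wr n (dist a b)) x ≤
      V (fun p q => psi a (dist p q)) x := by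
    rw [← h2.tsum_eq]
    exact h2.summable.sum_le_tsum _ fun n _ => mul_nonneg (h.nonneg n) (V_wr_nonneg n x)
  have h4 : ∑ n ∈ Finset.range (n0 + 1),
      a n * ((1/2) * (((n : ℝ) + 1) ^ 3)⁻¹ * ((Nn n : ℝ) * ((k : ℝ) - 2 * n) ^ 3)) ≤
      ∑ n ∈ Finset.range (n0 + 1), a n * V (fun a b => wr n (dist a b)) x := by
    refine Finset.sum_le_sum fun n hn => mul_le_mul_of_nonneg_left ?_ (h.nonneg n)
    refine trial_V ?_ σ x hx
    have := Finset.mem_range.1 hn
    omega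
  rw [hcard]
  linarith

lemma C3_subset_cube {k : ℕ} {t : Z3} (ht : t ∈ Tk k) : C3 t ⊆ cube (3 * k) := by
  intro x hx i
  have h1 := C3_bounds hx i
  have h2 := Finset.mem_Ico.1 (Fintype.mem_piFinset.1 ht i)
  have h3 : (0 : ℝ) ≤ t i := by exact_mod_cast h2.1
  have h4 : (t i : ℝ) + 1 ≤ k := by exact_mod_cast h2.2
  constructor
  · linarith [h1.1]
  · linarith [h1.2]

lemma C3_unique {s t : Z3} {x : E3} (hs : x ∈ C3 s) (ht : x ∈ C3 t) : s = t := by
  funext i
  have h : (fun i => 3 * s i) = (fun i => 3 * t i) := hs.symm.trans ht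
  have h2 : 3 * s i = 3 * t i := congrFun h i
  omega

theorem trial_Xi {A : ℝ} {a : ℕ → ℝ} (h : Good A a) (μ : ℝ) {k n0 : ℕ} (hk : 2 * n0 ≤ k) :
    ENNReal.ofReal (Real.exp (μ * (k : ℝ) ^ 3 + ∑ n ∈ Finset.range (n0 + 1),
      a n * ((1/2) * (((n : ℝ) + 1) ^ 3)⁻¹ * ((Nn n : ℝ) * ((k : ℝ) - 2 * n) ^ 3)))) ≤
      Xi (cube (3 * k)) (ham (uu A a) μ) := by
  classical
  set Q : ℝ := μ * (k : ℝ) ^ 3 + ∑ n ∈ Finset.range (n0 + 1),
      a n * ((1/2) * (((n : ℝ) + 1) ^ 3)⁻¹ * ((Nn n : ℝ) * ((k : ℝ) - 2 * n) ^ 3)) with hQ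
  rw [Xi_eq (measurableSet_cube _) (measurable_uu A h.sum h.nonneg)]
  set N := k ^ 3 with hN
  refine le_trans ?_ (ENNReal.le_tsum N)
  have hcardT : Fintype.card {t // t ∈ Tk k} = N := by rw [Fintype.card_coe, Tk_card]
  have hmeasS : ∀ σ : Fin N ≃ {t // t ∈ Tk k},
      MeasurableSet (Set.pi Set.univ (fun i : Fin N => C3 (σ i))) :=
    fun σ => MeasurableSet.univ_pi fun i => measurableSet_C3 _
  have hJ : ((N.factorial : ℕ) : ℝ≥0∞) * ENNReal.ofReal (Real.exp Q) ≤
      J (cube (3 * k)) (uu A a) μ (Fin N) := by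
    unfold J
    calc ((N.factorial : ℕ) : ℝ≥0∞) * ENNReal.ofReal (Real.exp Q)
        = ∑ σ : Fin N ≃ {t // t ∈ Tk k}, ENNReal.ofReal (Real.exp Q) := by
          rw [Finset.sum_const, Finset.card_univ,
            Fintype.card_equiv (Fintype.equivFinOfCardEq hcardT).symm, Fintype.card_fin, nsmul_eq_mul]
      _ = ∑ σ : Fin N ≃ {t // t ∈ Tk k}, ∫⁻ x : Fin N → E3,
            (Set.pi Set.univ (fun i : Fin N => C3 (σ i))).indicator
              (fun _ => ENNReal.ofReal (Real.exp Q)) x := by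
          refine Finset.sum_congr rfl fun σ _ => ?_
          rw [lintegral_indicator_const (hmeasS σ), volume_pi_pi]
          simp [volume_C3]
      _ = ∫⁻ x : Fin N → E3, ∑ σ : Fin N ≃ {t // t ∈ Tk k},
            (Set.pi Set.univ (fun i : Fin N => C3 (σ i))).indicator
              (fun _ => ENNReal.ofReal (Real.exp Q)) x := by
          rw [lintegral_finsetSum]
          intro σ _
          exact measurable_const.indicator (hmeasS σ)
      _ ≤ ∫⁻ x : Fin N → E3, (∏ i, (cube (3 * k)).indicator (1 : E3 → ℝ≥0∞) (x i)) *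
            ENNReal.ofReal (Real.exp (V (uu A a) x + μ * Fintype.card (Fin N))) := by
          refine lintegral_mono fun x => ?_
          simp only
          by_cases hex : ∃ σ : Fin N ≃ {t // t ∈ Tk k}, x ∈ Set.pi Set.univ (fun i : Fin N => C3 (σ i))
          · obtain ⟨σ, hσ⟩ := hex
            rw [Finset.sum_eq_single σ]
            · rw [Set.indicator_of_mem hσ, indprod_eq, Set.indicator_of_mem]
              · rw [Pi.one_apply, one_mul]
                refine ENNReal.ofReal_le_ofReal (Real.exp_le_exp.2 ?_)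
                exact trial_ham h μ hk σ x (fun i => hσ i (Set.mem_univ i))
              · intro i
                exact C3_subset_cube (σ i).2 (hσ i (Set.mem_univ i))
            · intro τ _ hne
              rw [Set.indicator_of_notMem]
              intro hτ
              apply hne
              ext i : 1
              apply Subtype.ext
              exact C3_unique (hτ i (Set.mem_univ i)) (hσ i (Set.mem_univ i))
            · intro hcon; exact absurd (Finset.mem_univ σ) hcon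
          · rw [Finset.sum_eq_zero]
            · exact zero_le
            · intro σ _
              rw [Set.indicator_of_notMem]
              intro hσ
              exact hex ⟨σ, hσ⟩
  calc ENNReal.ofReal (Real.exp Q)
      = ((N.factorial : ℝ≥0∞))⁻¹ * (((N.factorial : ℕ) : ℝ≥0∞) * ENNReal.ofReal (Real.exp Q)) := by
        rw [← mul_assoc, ENNReal.inv_mul_cancel _ (ENNReal.natCast_ne_top _), one_mul]
        exact_mod_cast Nat.factorial_ne_zero N
    _ ≤ ((N.factorial : ℝ≥0∞))⁻¹ * J (cube (3 * k)) (uu A a) μ (Fin N) := mul_le_mul' le_rfl hJ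

/-- pair energy constant of the trial state -/
noncomputable def ee (n : ℕ) : ℝ := (1/54) * (((n : ℝ) + 1) ^ 3)⁻¹ * (Nn n : ℝ)

lemma ee_nonneg (n : ℕ) : 0 ≤ ee n := by unfold ee; positivity

theorem PP_lower_finite {A : ℝ} {a : ℕ → ℝ} (h : Good A a) (μ : ℝ) (n0 : ℕ) :
    μ / 27 + ∑ n ∈ Finset.range (n0 + 1), a n * ee n ≤ PP A a μ := by
  have hlim := (PP_tendsto h μ).comp
    (tendsto_natCast_atTop_atTop.const_mul_atTop (show (0 : ℝ) < 3 by norm_num) :
      Tendsto (fun k : ℕ => 3 * (k : ℝ)) atTop atTop)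
  refine le_of_tendsto_of_tendsto (f := fun k : ℕ => (1/27) * (μ + ∑ n ∈ Finset.range (n0 + 1),
      a n * ((1/2) * (((n : ℝ) + 1) ^ 3)⁻¹ * ((Nn n : ℝ) * (1 - 2 * n / k) ^ 3)))) ?_ hlim ?_
  · have h1 : Tendsto (fun k : ℕ => (1/27) * (μ + ∑ n ∈ Finset.range (n0 + 1),
      a n * ((1/2) * (((n : ℝ) + 1) ^ 3)⁻¹ * ((Nn n : ℝ) * (1 - 2 * n / (k : ℝ)) ^ 3)))) atTop
      (𝓝 ((1/27) * (μ + ∑ n ∈ Finset.range (n0 + 1),
      a n * ((1/2) * (((n : ℝ) + 1) ^ 3)⁻¹ * ((Nn n : ℝ) * (1 - 0) ^ 3))))) := by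
      refine Tendsto.const_mul _ (Tendsto.const_add _ ?_)
      refine tendsto_finsetSum _ fun n _ => ?_
      refine Tendsto.const_mul _ (Tendsto.const_mul _ (Tendsto.const_mul _ (Tendsto.pow ?_ 3)))
      refine Tendsto.const_sub _ ?_
      exact tendsto_const_nhds.div_atTop tendsto_natCast_atTop_atTop
    refine h1.trans (le_of_eq ?_)
    congr 1
    rw [mul_add, Finset.mul_sum]
    congr 1
    · ring
    · refine Finset.sum_congr rfl fun n _ => ?_
      unfold ee; ring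
  · filter_upwards [eventually_ge_atTop (2 * n0), eventually_gt_atTop 0] with k hk hk0
    have hk0' : (0 : ℝ) < k := by exact_mod_cast hk0
    have h2 := trial_Xi h μ hk
    have h3 : Real.exp (μ * (k : ℝ) ^ 3 + ∑ n ∈ Finset.range (n0 + 1),
      a n * ((1/2) * (((n : ℝ) + 1) ^ 3)⁻¹ * ((Nn n : ℝ) * ((k : ℝ) - 2 * n) ^ 3))) ≤
      (Xi (cube (3 * k)) (ham (uu A a) μ)).toReal := by
      have := ENNReal.toReal_mono (Xi_cube_ne_top h μ (M := 3 * (k : ℝ)) (by positivity)) h2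
      rwa [ENNReal.toReal_ofReal (Real.exp_pos _).le] at this
    have h4 : μ * (k : ℝ) ^ 3 + ∑ n ∈ Finset.range (n0 + 1),
      a n * ((1/2) * (((n : ℝ) + 1) ^ 3)⁻¹ * ((Nn n : ℝ) * ((k : ℝ) - 2 * n) ^ 3)) ≤
      gg A a μ (3 * k) := by
      unfold gg
      rw [Real.le_log_iff_exp_le (lt_of_lt_of_le (Real.exp_pos _) h3)]
      exact h3
    simp only [Function.comp]
    rw [le_div_iff₀ (by positivity)]
    refine le_trans (le_of_eq ?_) h4
    have e1 : (3 * (k : ℝ)) ^ 3 = 27 * (k : ℝ) ^ 3 := by ring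
    rw [e1]
    have e2 : ∀ n ∈ Finset.range (n0 + 1),
      a n * ((1/2) * (((n : ℝ) + 1) ^ 3)⁻¹ * ((Nn n : ℝ) * ((k : ℝ) - 2 * n) ^ 3)) =
      a n * ((1/2) * (((n : ℝ) + 1) ^ 3)⁻¹ * ((Nn n : ℝ) * (1 - 2 * n / k) ^ 3)) * (k : ℝ) ^ 3 := by
      intro n _
      have : ((k : ℝ) - 2 * n) ^ 3 = (1 - 2 * n / (k : ℝ)) ^ 3 * (k : ℝ) ^ 3 := by
        rw [← mul_pow]; congr 1; field_simp
      rw [this]; ring
    rw [Finset.sum_congr rfl e2, ← Finset.sum_mul]
    ring

lemma ee_le (n : ℕ) : ee n ≤ 1 := by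
  unfold ee Nn
  have hsub : (latBall (((n : ℝ) - 1) / 3) \ {0}) ⊆ (Bbox n : Set Z3) := by
    intro b hb
    simp only [Bbox, Finset.mem_coe, Fintype.mem_piFinset, Finset.mem_Icc]
    exact fun i => latBall_sub_bound hb.1 i
  have h1 : (latBall (((n : ℝ) - 1) / 3) \ {0}).ncard ≤ (2 * n + 1) ^ 3 := by
    have := Set.ncard_le_ncard hsub (Finset.finite_toSet _)
    rwa [Set.ncard_coe_finset, Bbox_card] at this
  have h2 : ((latBall (((n : ℝ) - 1) / 3) \ {0}).ncard : ℝ) ≤ (2 * (n : ℝ) + 1) ^ 3 := by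
    exact_mod_cast h1
  have h3 : (2 * (n : ℝ) + 1) ^ 3 ≤ 8 * ((n : ℝ) + 1) ^ 3 := by
    have : (2 * (n : ℝ) + 1) ≤ 2 * ((n : ℝ) + 1) := by linarith
    calc (2 * (n : ℝ) + 1) ^ 3 ≤ (2 * ((n : ℝ) + 1)) ^ 3 := pow_le_pow_left₀ (by positivity) this 3
      _ = 8 * ((n : ℝ) + 1) ^ 3 := by ring
  have hpos : (0 : ℝ) < ((n : ℝ) + 1) ^ 3 := by positivity
  have h4 : (((n : ℝ) + 1) ^ 3)⁻¹ * ((latBall (((n : ℝ) - 1) / 3) \ {0}).ncard : ℝ) ≤ 8 := by
    rw [inv_mul_le_iff₀ hpos]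
    linarith
  rw [mul_assoc]
  linarith

lemma summable_ae {a : ℕ → ℝ} (ha : Summable a) (h0 : ∀ n, 0 ≤ a n) :
    Summable (fun n => a n * ee n) := by
  refine Summable.of_nonneg_of_le (fun n => mul_nonneg (h0 n) (ee_nonneg n)) (fun n => ?_) ha
  calc a n * ee n ≤ a n * 1 := mul_le_mul_of_nonneg_left (ee_le n) (h0 n)
    _ = a n := mul_one _

theorem PP_lower {A : ℝ} {a : ℕ → ℝ} (h : Good A a) (μ : ℝ) :
    μ / 27 + ∑' n, a n * ee n ≤ PP A a μ := by
  have h1 : ∑' n, a n * ee n ≤ PP A a μ - μ / 27 := by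
    refine (summable_ae h.sum h.nonneg).tsum_le_of_sum_range_le fun n0 => ?_
    have h2 := PP_lower_finite h μ n0
    rw [Finset.sum_range_succ] at h2
    have h3 : 0 ≤ a n0 * ee n0 := mul_nonneg (h.nonneg n0) (ee_nonneg n0)
    linarith
  linarith

end Vale.Agent.P171
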