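import Mathlib
import Vale.Agent.P171.Trial
import Vale.Agent.P171.Lattice

set_option autoImplicit false
set_option linter.unusedSectionVars false

open MeasureTheory Set Filter Topology
open scoped ENNReal BigOperators

namespace Vale.Agent.P171

/-- interaction with an extra multiple of the pair count `SS` -/
noncomputable def ud (A : ℝ) (a : ℕ → ℝ) (δ : ℝ) (x y : E3) : ℝ := uu A a x y + 2 * δ * sc x y

lemma measurable_ud (A : ℝ) {a : ℕ → ℝ} (ha : Summable a) (h0 : ∀ n, 0 ≤ a n) (δ : ℝ) :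
    Measurable (fun p : E3 × E3 => ud A a δ p.1 p.2) := by
  unfold ud
  exact (measurable_uu A ha h0).add (measurable_sc.const_mul _)

noncomputable def HS (A : ℝ) (a : ℕ → ℝ) (μ δ : ℝ) : Conf E3 → ℝ := ham (ud A a δ) (μ + δ)

lemma HS_eq (A : ℝ) (a : ℕ → ℝ) (μ δ : ℝ) (ω : Conf E3) :
    HS A a μ δ ω = ham (uu A a) μ ω + δ * SS ω.2 := by
  unfold HS ham
  have h1 : V (ud A a δ) ω.2 = V (uu A a) ω.2 + 2 * δ * V sc ω.2 := by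
    rw [← V_smul, ← V_add]; rfl
  have h2 := SS_eq ω.2
  rw [Fintype.card_fin] at h2
  rw [h1, h2]
  ring

/-- `Good` with a margin -/
structure Good2 (A : ℝ) (a : ℕ → ℝ) (η0 : ℝ) : Prop where
  A0 : 0 ≤ A
  sum : Summable a
  nonneg : ∀ n, 0 ≤ a n
  pos : 0 < η0
  le : 27 * ∑' n, a n + 2 * η0 ≤ A

lemma Good2.good {A : ℝ} {a : ℕ → ℝ} {η0 : ℝ} (h : Good2 A a η0) : Good A a :=
  ⟨h.A0, h.sum, h.nonneg, by linarith [h.le, h.pos]⟩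

lemma HS_le {A : ℝ} {a : ℕ → ℝ} {η0 : ℝ} (h : Good2 A a η0) (μ : ℝ) {δ : ℝ} (hδ : δ ≤ η0)
    (ω : Conf E3) : HS A a μ δ ω ≤ (μ + A / 2) * ω.1 := by
  rw [HS_eq]
  have h1 := V_uu_le h.A0 h.sum h.nonneg ω.2
  have h2 := SS_nonneg ω.2
  have h3 := h.le
  rw [Fintype.card_fin] at h1
  unfold ham
  have h4 : 0 ≤ (A - 27 * ∑' n, a n - 2 * δ) * SS ω.2 := mul_nonneg (by linarith) h2
  nlinarith

lemma Xi_HS_le {A : ℝ} {a : ℕ → ℝ} {η0 : ℝ} (h : Good2 A a η0) (μ : ℝ) {δ : ℝ} (hδ : δ ≤ η0)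
    {Λ : Set E3} (hΛ : MeasurableSet Λ) {v : ℝ} (hv : 0 ≤ v) (hvol : volume Λ ≤ ENNReal.ofReal v) :
    Xi Λ (HS A a μ δ) ≤ ENNReal.ofReal (Real.exp (Real.exp (μ + A / 2) * v)) :=
  Xi_le_ideal hΛ (measurable_ud A h.sum h.nonneg δ) _ _ v hv hvol (fun ω _ => HS_le h μ hδ ω)

lemma one_le_Xi_HS {A : ℝ} {a : ℕ → ℝ} {η0 : ℝ} (h : Good2 A a η0) (μ δ : ℝ)
    {Λ : Set E3} (hΛ : MeasurableSet Λ) : 1 ≤ Xi Λ (HS A a μ δ) :=
  one_le_Xi hΛ (measurable_ud A h.sum h.nonneg δ) _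

lemma HS_zero (A : ℝ) (a : ℕ → ℝ) (μ : ℝ) : HS A a μ 0 = ham (uu A a) μ := by
  funext ω
  rw [HS_eq]; ring

/-- the interpolation bound -/
theorem interp {A : ℝ} {a : ℕ → ℝ} {η0 : ℝ} (h : Good2 A a η0) (μ : ℝ) {δ : ℝ} (hδ0 : 0 ≤ δ)
    (hδ : δ ≤ η0) {Λ : Set E3} (hΛ : MeasurableSet Λ) {v : ℝ} (hv : 0 ≤ v)
    (hvol : volume Λ ≤ ENNReal.ofReal v) :
    Real.log (Xi Λ (HS A a μ δ)).toReal ≤
      Real.log (Xi Λ (ham (uu A a) μ)).toReal + (δ / η0) * (Real.exp (μ + A / 2) * v) := by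
  have hη := h.pos
  set θ := δ / η0 with hθ
  have hθ0 : 0 ≤ θ := div_nonneg hδ0 hη.le
  have hθ1 : θ ≤ 1 := (div_le_one hη).2 hδ
  have h1 : Xi Λ (HS A a μ δ) ≤ (Xi Λ (HS A a μ 0)) ^ (1 - θ) * (Xi Λ (HS A a μ η0)) ^ θ := by
    refine le_trans (le_of_eq ?_) (Xi_interp (measurable_ham (measurable_ud A h.sum h.nonneg 0) _)
      (measurable_ham (measurable_ud A h.sum h.nonneg η0) _) hθ0 hθ1)
    congr 1
    funext ω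
    have e0 := HS_eq A a μ 0 ω
    have e1 := HS_eq A a μ η0 ω
    have e2 := HS_eq A a μ δ ω
    unfold HS at e0 e1
    rw [e2, e0, e1, hθ]
    field_simp
    ring
  have f0 : Xi Λ (HS A a μ 0) ≠ ⊤ :=
    ne_top_of_le_ne_top ENNReal.ofReal_ne_top (Xi_HS_le h μ h.pos.le hΛ hv hvol)
  have f1 : Xi Λ (HS A a μ η0) ≠ ⊤ :=
    ne_top_of_le_ne_top ENNReal.ofReal_ne_top (Xi_HS_le h μ le_rfl hΛ hv hvol)
  have g0 := one_le_Xi_HS h μ 0 hΛ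
  have g1 := one_le_Xi_HS h μ η0 hΛ
  have gd := one_le_Xi_HS h μ δ hΛ
  have p0 : (0 : ℝ) < (Xi Λ (HS A a μ 0)).toReal :=
    ENNReal.toReal_pos (lt_of_lt_of_le one_pos g0).ne' f0
  have p1 : (0 : ℝ) < (Xi Λ (HS A a μ η0)).toReal :=
    ENNReal.toReal_pos (lt_of_lt_of_le one_pos g1).ne' f1
  have f2 : (Xi Λ (HS A a μ 0)) ^ (1 - θ) * (Xi Λ (HS A a μ η0)) ^ θ ≠ ⊤ := by
    refine ENNReal.mul_ne_top ?_ ?_
    · exact ENNReal.rpow_ne_top_of_nonneg (by linarith) f0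
    · exact ENNReal.rpow_ne_top_of_nonneg hθ0 f1
  have h2 := log_toReal_mono gd f2 h1
  rw [ENNReal.toReal_mul, ← ENNReal.toReal_rpow, ← ENNReal.toReal_rpow,
    Real.log_mul (Real.rpow_pos_of_pos p0 _).ne' (Real.rpow_pos_of_pos p1 _).ne',
    Real.log_rpow p0, Real.log_rpow p1] at h2
  have l0 : 0 ≤ Real.log (Xi Λ (HS A a μ 0)).toReal := log_toReal_nonneg g0 f0
  have l1 : Real.log (Xi Λ (HS A a μ η0)).toReal ≤ Real.exp (μ + A / 2) * v := by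
    have := log_toReal_mono g1 ENNReal.ofReal_ne_top (Xi_HS_le h μ le_rfl hΛ hv hvol)
    rwa [ENNReal.toReal_ofReal (Real.exp_pos _).le, Real.log_exp] at this
  rw [HS_zero] at h2 l0
  refine h2.trans ?_
  have h5 : θ * Real.log (Xi Λ (HS A a μ η0)).toReal ≤ θ * (Real.exp (μ + A / 2) * v) :=
    mul_le_mul_of_nonneg_left l1 hθ0
  have h6 : (1 - θ) * Real.log (Xi Λ (ham (uu A a) μ)).toReal ≤
      Real.log (Xi Λ (ham (uu A a) μ)).toReal := by nlinarith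
  linarith

/-! ### the single block -/

lemma Dblk_subset_cube {ℓ : ℕ} (hℓ : 0 < ℓ) : Dblk ℓ 0 0 ⊆ cube ℓ := by
  intro x hx i
  have hl : (0 : ℤ) < ℓ := by exact_mod_cast hℓ
  have h : (⌊x i⌋ - ((0 : ℕ) : ℤ)) / (ℓ : ℤ) = 0 := congrFun hx i
  rw [Int.ediv_eq_iff_of_pos hl] at h
  obtain ⟨h1, h2⟩ := h
  push_cast at h1 h2
  have h3 : 0 ≤ ⌊x i⌋ := by linarith
  have h4 : ⌊x i⌋ < ℓ := by linarith
  constructor
  · exact Int.floor_nonneg.1 h3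
  · have : x i < ((ℓ : ℤ) : ℝ) := Int.floor_lt.1 h4
    push_cast at this
    exact this.le

lemma volume_Dblk_le {ℓ : ℕ} (hℓ : 0 < ℓ) : volume (Dblk ℓ 0 0) ≤ ENNReal.ofReal ((ℓ : ℝ) ^ 3) := by
  rw [← volume_cube (ℓ : ℝ) (Nat.cast_nonneg ℓ)]
  exact measure_mono (Dblk_subset_cube hℓ)

lemma N_sq_le {ℓ : ℕ} (hℓ : 0 < ℓ) {ω : Conf E3} (hω : ω ∈ ins (Dblk ℓ 0 0)) :
    (ω.1 : ℝ) ^ 2 ≤ 27 * (ℓ : ℝ) ^ 3 * SS ω.2 := by
  classical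
  have hl : (0 : ℤ) < ℓ := by exact_mod_cast hℓ
  have hb : ∀ (x : E3), x ∈ Dblk ℓ 0 0 → ∀ i, 0 ≤ ⌊x i⌋ ∧ ⌊x i⌋ < ℓ := by
    intro x hx i
    have h : (⌊x i⌋ - ((0 : ℕ) : ℤ)) / (ℓ : ℤ) = 0 := congrFun hx i
    rw [Int.ediv_eq_iff_of_pos hl] at h
    obtain ⟨h1, h2⟩ := h
    push_cast at h1 h2
    constructor <;> linarith
  have h := count_pairs (fun i => cell (ω.2 i)) (Bbox ℓ) (fun _ _ => True) (by
    intro i j _
    unfold Bbox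
    rw [Fintype.mem_piFinset]
    intro k
    have h1 := hb _ (hω i) k
    have h2 := hb _ (hω j) k
    rw [Finset.mem_Icc]
    have e : (cell (ω.2 j) - cell (ω.2 i)) k = ⌊ω.2 j k⌋ - ⌊ω.2 i k⌋ := rfl
    rw [e]
    constructor <;> linarith [h1.1, h1.2, h2.1, h2.2])
  simp only [if_true, Finset.sum_const, Finset.card_univ, Fintype.card_fin, nsmul_eq_mul, mul_one] at h
  rw [Bbox_card] at h
  have h5 : (((2 * ℓ + 1) ^ 3 : ℕ) : ℝ) ≤ 27 * (ℓ : ℝ) ^ 3 := by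
    push_cast
    have : (2 * (ℓ : ℝ) + 1) ≤ 3 * ℓ := by
      have : (1 : ℝ) ≤ ℓ := by exact_mod_cast hℓ
      linarith
    calc (2 * (ℓ : ℝ) + 1) ^ 3 ≤ (3 * (ℓ : ℝ)) ^ 3 := pow_le_pow_left₀ (by positivity) this 3
      _ = 27 * (ℓ : ℝ) ^ 3 := by ring
  have h6 := SS_nonneg ω.2
  calc (ω.1 : ℝ) ^ 2 = (ω.1 : ℝ) * ω.1 := by ring
    _ ≤ (((2 * ℓ + 1) ^ 3 : ℕ) : ℝ) * SS ω.2 := h
    _ ≤ 27 * (ℓ : ℝ) ^ 3 * SS ω.2 := mul_le_mul_of_nonneg_right h5 h6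

lemma ham_uh_eq (A : ℝ) (a : ℕ → ℝ) (τ η μ : ℝ) (ω : Conf E3) :
    ham (uh A a τ η) (μ + τ / 2 + η / 2) ω =
      ham (uu A a) μ ω + τ / 2 * (ω.1 : ℝ) ^ 2 + η / 2 * SS ω.2 := by
  unfold ham
  have h1 : V (uh A a τ η) ω.2 = V (uu A a) ω.2 + τ * V (fun _ _ => (1 : ℝ)) ω.2 + η * V sc ω.2 := by
    rw [← V_smul, ← V_smul, ← V_add, ← V_add]
    refine V_congr _ fun i j _ => ?_
    unfold uh; ring
  have h2 := SS_eq ω.2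
  have h3 := V_add_half_card (fun _ _ => (1 : ℝ)) (fun _ => rfl) ω.2
  simp only [Finset.sum_const, Finset.card_univ, Fintype.card_fin, nsmul_eq_mul, mul_one] at h3
  rw [Fintype.card_fin] at h2
  rw [h1, h2]
  linear_combination (-(τ / 2)) * h3

/-- splitting according to the number of particles in the block -/
theorem split_bound {A : ℝ} {a : ℕ → ℝ} {η0 : ℝ} (h : Good2 A a η0) {ℓ : ℕ} (hℓ : 0 < ℓ)
    {c0 η s r μ : ℝ} (hc0 : 0 ≤ c0) (hs : 0 ≤ s) (hr : 0 ≤ r) :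
    Xi (Dblk ℓ 0 0) (ham (uh A a (c0 / (ℓ : ℝ) ^ 3) η) (μ + (c0 / (ℓ : ℝ) ^ 3) / 2 + η / 2)) ≤
      ENNReal.ofReal (Real.exp (c0 * r ^ 2 / 2 * (ℓ : ℝ) ^ 3)) *
        Xi (Dblk ℓ 0 0) (HS A a μ (η / 2)) +
      ENNReal.ofReal (Real.exp (- s * r * (ℓ : ℝ) ^ 3)) *
        Xi (Dblk ℓ 0 0) (HS A a (μ + s) (27 * c0 / 2 + η / 2)) := by
  have hl : (0 : ℝ) < ℓ := by exact_mod_cast hℓ
  have hl3 : (0 : ℝ) < (ℓ : ℝ) ^ 3 := by positivity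
  have m1 : Measurable (fun ω => ENNReal.ofReal (Real.exp (HS A a μ (η / 2) ω))) :=
    ENNReal.measurable_ofReal.comp (Real.measurable_exp.comp
      (measurable_ham (measurable_ud A h.sum h.nonneg _) _))
  have m2 : Measurable (fun ω => ENNReal.ofReal (Real.exp (HS A a (μ + s) (27 * c0 / 2 + η / 2) ω))) :=
    ENNReal.measurable_ofReal.comp (Real.measurable_exp.comp
      (measurable_ham (measurable_ud A h.sum h.nonneg _) _))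
  unfold Xi
  rw [← lintegral_const_mul _ m1, ← lintegral_const_mul _ m2,
    ← lintegral_add_left (m1.const_mul _)]
  refine setLIntegral_mono' (measurableSet_ins (measurableSet_Dblk ℓ 0 0)) fun ω hω => ?_
  rw [ham_uh_eq]
  have hN := N_sq_le hℓ hω
  have hS := SS_nonneg ω.2
  rw [← ENNReal.ofReal_mul (Real.exp_pos _).le, ← ENNReal.ofReal_mul (Real.exp_pos _).le,
    ← Real.exp_add, ← Real.exp_add, HS_eq, HS_eq]
  by_cases hcase : (ω.1 : ℝ) ≤ r * (ℓ : ℝ) ^ 3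
  · refine le_trans ?_ le_self_add
    refine ENNReal.ofReal_le_ofReal (Real.exp_le_exp.2 ?_)
    have h1 : (ω.1 : ℝ) ^ 2 ≤ (r * (ℓ : ℝ) ^ 3) ^ 2 :=
      pow_le_pow_left₀ (Nat.cast_nonneg _) hcase 2
    have h2 : c0 / (ℓ : ℝ) ^ 3 / 2 * (ω.1 : ℝ) ^ 2 ≤ c0 / (ℓ : ℝ) ^ 3 / 2 * (r * (ℓ : ℝ) ^ 3) ^ 2 :=
      mul_le_mul_of_nonneg_left h1 (by positivity)
    have h3 : c0 / (ℓ : ℝ) ^ 3 / 2 * (r * (ℓ : ℝ) ^ 3) ^ 2 = c0 * r ^ 2 / 2 * (ℓ : ℝ) ^ 3 := by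
      field_simp
    linarith
  · refine le_trans ?_ le_add_self
    refine ENNReal.ofReal_le_ofReal (Real.exp_le_exp.2 ?_)
    have hcase' : r * (ℓ : ℝ) ^ 3 ≤ ω.1 := (not_le.1 hcase).le
    have h2 : c0 / (ℓ : ℝ) ^ 3 / 2 * (ω.1 : ℝ) ^ 2 ≤
        c0 / (ℓ : ℝ) ^ 3 / 2 * (27 * (ℓ : ℝ) ^ 3 * SS ω.2) :=
      mul_le_mul_of_nonneg_left hN (by positivity)
    have h3 : c0 / (ℓ : ℝ) ^ 3 / 2 * (27 * (ℓ : ℝ) ^ 3 * SS ω.2) = 27 * c0 / 2 * SS ω.2 := by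
      field_simp
    have h4 : ham (uu A a) (μ + s) ω = ham (uu A a) μ ω + s * ω.1 := by
      unfold ham; ring
    have h5 : s * (r * (ℓ : ℝ) ^ 3) ≤ s * ω.1 := mul_le_mul_of_nonneg_left hcase' hs
    rw [h4]
    nlinarith

/-- logarithmic form of the block estimate -/
theorem block_log {A : ℝ} {a : ℕ → ℝ} {η0 : ℝ} (h : Good2 A a η0) {ℓ : ℕ} (hℓ : 0 < ℓ)
    {c0 η s r μ : ℝ} (hc0 : 0 ≤ c0) (hη : 0 ≤ η) (hs : 0 ≤ s) (hr : 0 ≤ r)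
    (hle : 27 * c0 / 2 + η / 2 ≤ η0) :
    Real.log (Xi (Dblk ℓ 0 0) (ham (uh A a (c0 / (ℓ : ℝ) ^ 3) η)
      (μ + (c0 / (ℓ : ℝ) ^ 3) / 2 + η / 2))).toReal ≤
    max (c0 * r ^ 2 / 2 * (ℓ : ℝ) ^ 3 + PP A a μ * ((ℓ : ℝ) + 2) ^ 3 +
          (η / 2 / η0) * (Real.exp (μ + A / 2) * (ℓ : ℝ) ^ 3))
        (- s * r * (ℓ : ℝ) ^ 3 + PP A a (μ + s) * ((ℓ : ℝ) + 2) ^ 3 +
          ((27 * c0 / 2 + η / 2) / η0) * (Real.exp (μ + s + A / 2) * (ℓ : ℝ) ^ 3)) + Real.log 2 ∧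
    1 ≤ Xi (Dblk ℓ 0 0) (ham (uh A a (c0 / (ℓ : ℝ) ^ 3) η) (μ + (c0 / (ℓ : ℝ) ^ 3) / 2 + η / 2)) ∧
    Xi (Dblk ℓ 0 0) (ham (uh A a (c0 / (ℓ : ℝ) ^ 3) η) (μ + (c0 / (ℓ : ℝ) ^ 3) / 2 + η / 2)) ≠ ⊤ := by
  have hl : (0 : ℝ) < ℓ := by exact_mod_cast hℓ
  have hD := measurableSet_Dblk ℓ 0 0
  have hvol := volume_Dblk_le hℓ
  have hv : (0 : ℝ) ≤ (ℓ : ℝ) ^ 3 := by positivity
  have hsplit := split_bound h hℓ (c0 := c0) (η := η) (s := s) (r := r) (μ := μ) hc0 hs hr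
  have hη2 : η / 2 ≤ η0 := by
    have : 0 ≤ 27 * c0 / 2 := by positivity
    linarith
  have i1 := interp h μ (δ := η / 2) (by positivity) hη2 hD hv hvol
  have i2 := interp h (μ + s) (δ := 27 * c0 / 2 + η / 2) (by positivity) hle hD hv hvol
  have f1 : Xi (Dblk ℓ 0 0) (HS A a μ (η / 2)) ≠ ⊤ :=
    ne_top_of_le_ne_top ENNReal.ofReal_ne_top (Xi_HS_le h μ hη2 hD hv hvol)
  have f2 : Xi (Dblk ℓ 0 0) (HS A a (μ + s) (27 * c0 / 2 + η / 2)) ≠ ⊤ :=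
    ne_top_of_le_ne_top ENNReal.ofReal_ne_top (Xi_HS_le h (μ + s) hle hD hv hvol)
  have g1 := one_le_Xi_HS h μ (η / 2) hD
  have g2 := one_le_Xi_HS h (μ + s) (27 * c0 / 2 + η / 2) hD
  -- compare D0 with the cube
  have hcube : ∀ ν : ℝ, Real.log (Xi (Dblk ℓ 0 0) (ham (uu A a) ν)).toReal ≤
      PP A a ν * ((ℓ : ℝ) + 2) ^ 3 := by
    intro ν
    have h1 := log_toReal_mono (one_le_Xi hD (measurable_uu A h.sum h.nonneg) ν)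
      (Xi_cube_ne_top h.good ν hl.le)
      (Xi_mono (Dblk_subset_cube hℓ) hD (fun ω _ => le_refl (ham (uu A a) ν ω)))
    exact h1.trans (gg_le_PP h.good ν ℓ)
  have hfin : ENNReal.ofReal (Real.exp (c0 * r ^ 2 / 2 * (ℓ : ℝ) ^ 3)) *
        Xi (Dblk ℓ 0 0) (HS A a μ (η / 2)) +
      ENNReal.ofReal (Real.exp (- s * r * (ℓ : ℝ) ^ 3)) *
        Xi (Dblk ℓ 0 0) (HS A a (μ + s) (27 * c0 / 2 + η / 2)) ≠ ⊤ :=
    ENNReal.add_ne_top.2 ⟨ENNReal.mul_ne_top ENNReal.ofReal_ne_top f1,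
      ENNReal.mul_ne_top ENNReal.ofReal_ne_top f2⟩
  have hone := one_le_Xi hD (measurable_uh A h.sum h.nonneg (c0 / (ℓ : ℝ) ^ 3) η)
    (μ + (c0 / (ℓ : ℝ) ^ 3) / 2 + η / 2)
  refine ⟨?_, hone, ne_top_of_le_ne_top hfin hsplit⟩
  have h1 := log_toReal_mono hone hfin hsplit
  refine h1.trans ?_
  rw [ENNReal.toReal_add (ENNReal.mul_ne_top ENNReal.ofReal_ne_top f1)
      (ENNReal.mul_ne_top ENNReal.ofReal_ne_top f2), ENNReal.toReal_mul, ENNReal.toReal_mul,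
    ENNReal.toReal_ofReal (Real.exp_pos _).le, ENNReal.toReal_ofReal (Real.exp_pos _).le]
  have q1 : (0 : ℝ) < (Xi (Dblk ℓ 0 0) (HS A a μ (η / 2))).toReal :=
    ENNReal.toReal_pos (lt_of_lt_of_le one_pos g1).ne' f1
  have q2 : (0 : ℝ) < (Xi (Dblk ℓ 0 0) (HS A a (μ + s) (27 * c0 / 2 + η / 2))).toReal :=
    ENNReal.toReal_pos (lt_of_lt_of_le one_pos g2).ne' f2
  set p := max (c0 * r ^ 2 / 2 * (ℓ : ℝ) ^ 3 + PP A a μ * ((ℓ : ℝ) + 2) ^ 3 +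
          (η / 2 / η0) * (Real.exp (μ + A / 2) * (ℓ : ℝ) ^ 3))
        (- s * r * (ℓ : ℝ) ^ 3 + PP A a (μ + s) * ((ℓ : ℝ) + 2) ^ 3 +
          ((27 * c0 / 2 + η / 2) / η0) * (Real.exp (μ + s + A / 2) * (ℓ : ℝ) ^ 3)) with hp
  have b1 : Real.exp (c0 * r ^ 2 / 2 * (ℓ : ℝ) ^ 3) *
      (Xi (Dblk ℓ 0 0) (HS A a μ (η / 2))).toReal ≤ Real.exp p := by
    rw [← Real.exp_log q1, ← Real.exp_add]
    refine Real.exp_le_exp.2 (le_trans ?_ (le_max_left _ _))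
    have := hcube μ
    linarith
  have b2 : Real.exp (- s * r * (ℓ : ℝ) ^ 3) *
      (Xi (Dblk ℓ 0 0) (HS A a (μ + s) (27 * c0 / 2 + η / 2))).toReal ≤ Real.exp p := by
    rw [← Real.exp_log q2, ← Real.exp_add]
    refine Real.exp_le_exp.2 (le_trans ?_ (le_max_right _ _))
    have := hcube (μ + s)
    linarith
  have hpos : (0 : ℝ) < Real.exp (c0 * r ^ 2 / 2 * (ℓ : ℝ) ^ 3) *
      (Xi (Dblk ℓ 0 0) (HS A a μ (η / 2))).toReal + Real.exp (- s * r * (ℓ : ℝ) ^ 3) *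
      (Xi (Dblk ℓ 0 0) (HS A a (μ + s) (27 * c0 / 2 + η / 2))).toReal := by positivity
  calc Real.log _ ≤ Real.log (Real.exp p * 2) := Real.log_le_log hpos (by linarith)
    _ = p + Real.log 2 := by rw [Real.log_mul (Real.exp_pos p).ne' (by norm_num), Real.log_exp]

end Vale.Agent.P171
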