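import Mathlib
import Vale.Agent.P171.Kac

set_option autoImplicit false
set_option linter.unusedSectionVars false

open MeasureTheory Set Filter Topology
open scoped ENNReal BigOperators

namespace Vale.Agent.P171

theorem PP_add_single_le {A : ℝ} {a : ℕ → ℝ} {η0 : ℝ} (h : Good2 A a η0) {ℓ : ℕ} (hℓ : 0 < ℓ)
    {t s r μ : ℝ} (ht : 0 ≤ t) (m : ℕ) (hg : Good A (fun n => a n + if n = m then t else 0))
    (hs : 0 ≤ s) (hr : 0 ≤ r)
    (hle : 27 * (t * kap ℓ m * (ℓ : ℝ) ^ 3) / 2 + eta a ℓ / 2 ≤ η0) :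
    PP A (fun n => a n + if n = m then t else 0) μ ≤
    max ((t * kap ℓ m * (ℓ : ℝ) ^ 3) * r ^ 2 / 2 + PP A a μ * (1 + 2 / ℓ) ^ 3 +
          (eta a ℓ / 2 / η0) * Real.exp (μ + A / 2))
        (- s * r + PP A a (μ + s) * (1 + 2 / ℓ) ^ 3 +
          ((27 * (t * kap ℓ m * (ℓ : ℝ) ^ 3) / 2 + eta a ℓ / 2) / η0) * Real.exp (μ + s + A / 2))
      + Real.log 2 / (ℓ : ℝ) ^ 3 := by
  have hl : (0 : ℝ) < ℓ := by exact_mod_cast hℓ
  have hl3 : (0 : ℝ) < (ℓ : ℝ) ^ 3 := by positivity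
  have hη : 0 ≤ eta a ℓ := by
    unfold eta
    exact mul_nonneg (by norm_num) (tsum_nonneg fun n => mul_nonneg (h.nonneg n) (mi_nonneg ℓ n))
  set c0 := t * kap ℓ m * (ℓ : ℝ) ^ 3 with hc0
  have hc0' : 0 ≤ c0 := mul_nonneg (mul_nonneg ht (kap_nonneg ℓ m)) hl3.le
  have hτ : t * kap ℓ m = c0 / (ℓ : ℝ) ^ 3 := by rw [hc0]; field_simp
  obtain ⟨b1, b2, b3⟩ := block_log h hℓ (c0 := c0) (η := eta a ℓ) (s := s) (r := r) (μ := μ)
    hc0' hη hs hr hle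
  set X := Xi (Dblk ℓ 0 0) (ham (uh A a (c0 / (ℓ : ℝ) ^ 3) (eta a ℓ))
      (μ + (c0 / (ℓ : ℝ) ^ 3) / 2 + eta a ℓ / 2)) with hX
  have hlogX : 0 ≤ Real.log X.toReal := log_toReal_nonneg b2 b3
  have h1 : ∀ M : ℝ, 0 ≤ M → gg A (fun n => a n + if n = m then t else 0) μ M ≤
      (M / ℓ + 2) ^ 3 * Real.log X.toReal := by
    intro M hM
    have h2 := Xi_decouple h.A0 h.sum h.nonneg hℓ ht m μ M
    rw [hτ] at h2
    have h3 := log_toReal_mono (one_le_Xi (measurableSet_cube M) (measurable_uu A hg.sum hg.nonneg) μ)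
      (ENNReal.pow_ne_top b3) h2
    rw [log_toReal_pow] at h3
    exact h3.trans (mul_le_mul_of_nonneg_right (Tset_card hℓ hM) hlogX)
  have h4 : PP A (fun n => a n + if n = m then t else 0) μ ≤ (1 / (ℓ : ℝ)) ^ 3 * Real.log X.toReal := by
    have hlim : Tendsto (fun M : ℝ => (1 / (ℓ : ℝ) + 2 / M) ^ 3 * Real.log X.toReal) atTop
        (𝓝 ((1 / (ℓ : ℝ) + 0) ^ 3 * Real.log X.toReal)) := by
      have : Tendsto (fun M : ℝ => 2 / M) atTop (𝓝 0) := tendsto_const_nhds.div_atTop tendsto_id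
      exact ((tendsto_const_nhds.add this).pow 3).mul_const _
    rw [add_zero] at hlim
    refine le_of_tendsto_of_tendsto (PP_tendsto hg μ) hlim ?_
    filter_upwards [eventually_gt_atTop 0] with M hM
    rw [div_le_iff₀ (by positivity)]
    refine (h1 M hM.le).trans (le_of_eq ?_)
    have : (1 / (ℓ : ℝ) + 2 / M) ^ 3 * M ^ 3 = (M / ℓ + 2) ^ 3 := by
      rw [← mul_pow]; congr 1; field_simp
    rw [← this]; ring
  refine h4.trans ?_
  have h5 : (1 / (ℓ : ℝ)) ^ 3 * Real.log X.toReal = Real.log X.toReal / (ℓ : ℝ) ^ 3 := by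
    rw [one_div, inv_pow]; ring
  rw [h5, div_le_iff₀ hl3]
  refine b1.trans ?_
  rw [add_mul, div_mul_cancel₀ _ hl3.ne', max_mul_of_nonneg _ _ hl3.le]
  have h6 : (1 + 2 / (ℓ : ℝ)) ^ 3 * (ℓ : ℝ) ^ 3 = ((ℓ : ℝ) + 2) ^ 3 := by
    rw [← mul_pow]; congr 1; field_simp
  refine add_le_add (le_of_eq ?_) le_rfl
  congr 1
  · rw [← h6]; ring
  · rw [← h6]; ring

lemma latBall_ncard_tendsto :
    Tendsto (fun r : ℝ => ((latBall r).ncard : ℝ) / r ^ 3) atTop (𝓝 (4 * Real.pi / 3)) :=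
  lattice_count

lemma kap_tendsto {ℓ : ℕ} (hℓ : 0 < ℓ) :
    Tendsto (fun m : ℕ => kap ℓ m * (ℓ : ℝ) ^ 3) atTop (𝓝 (4 * Real.pi / 3)) := by
  have hl : (0 : ℝ) < ℓ := by exact_mod_cast hℓ
  have hcast : Tendsto (fun m : ℕ => ((m : ℝ) + 1)) atTop atTop :=
    tendsto_atTop_add_const_right _ _ tendsto_natCast_atTop_atTop
  have hr : Tendsto (fun m : ℕ => ((m : ℝ) + 1) / ℓ + 2) atTop atTop :=
    tendsto_atTop_add_const_right _ _ (hcast.atTop_div_const hl)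
  have h1 := latBall_ncard_tendsto.comp hr
  have h2 : Tendsto (fun m : ℕ => (1 + 2 * ℓ / ((m : ℝ) + 1)) ^ 3) atTop (𝓝 ((1 + 0) ^ 3)) :=
    (tendsto_const_nhds.add (tendsto_const_nhds.div_atTop hcast)).pow 3
  have h3 := h1.mul h2
  simp only [add_zero, one_pow, mul_one] at h3
  refine h3.congr fun m => ?_
  simp only [Function.comp]
  have hm : (0 : ℝ) < (m : ℝ) + 1 := by positivity
  have hq : (0 : ℝ) < ((m : ℝ) + 1) / ℓ + 2 := by positivity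
  unfold kap
  have e : ((m : ℝ) + 1) / ℓ + 2 = (1 + 2 * ℓ / ((m : ℝ) + 1)) * (((m : ℝ) + 1) / ℓ) := by
    field_simp
  have e2 : (((m : ℝ) + 1) / ℓ + 2) ^ 3 = (1 + 2 * ℓ / ((m : ℝ) + 1)) ^ 3 * ((((m : ℝ) + 1)) ^ 3 / (ℓ : ℝ) ^ 3) := by
    rw [e]
    rw [mul_pow, div_pow ((m : ℝ) + 1) (ℓ : ℝ) 3]
  have hpos : (0 : ℝ) < (1 + 2 * ℓ / ((m : ℝ) + 1)) ^ 3 := by positivity
  rw [e2]
  field_simp

lemma ee_tendsto : Tendsto ee atTop (𝓝 (4 * Real.pi / 3 / 1458)) := by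
  have hcast : Tendsto (fun n : ℕ => (n : ℝ)) atTop atTop := tendsto_natCast_atTop_atTop
  have hr : Tendsto (fun n : ℕ => ((n : ℝ) - 1) / 3) atTop atTop :=
    (tendsto_atTop_add_const_right _ (-1) hcast).atTop_div_const (by norm_num)
  have h1 := latBall_ncard_tendsto.comp hr
  have hc1 : Tendsto (fun n : ℕ => ((n : ℝ) + 1)) atTop atTop :=
    tendsto_atTop_add_const_right _ _ hcast
  have h2 : Tendsto (fun n : ℕ => (1 - 2 / ((n : ℝ) + 1)) ^ 3) atTop (𝓝 ((1 - 0) ^ 3)) :=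
    (tendsto_const_nhds.sub (tendsto_const_nhds.div_atTop hc1)).pow 3
  have h3 : Tendsto (fun n : ℕ => 1 / ((n : ℝ) + 1) ^ 3) atTop (𝓝 0) :=
    tendsto_const_nhds.div_atTop ((tendsto_pow_atTop (by norm_num)).comp hc1)
  have h4 := (((h1.mul h2).mul_const (1 / 27)).sub h3).const_mul (1 / 54)
  have e : (1 : ℝ) / 54 * (4 * Real.pi / 3 * (1 - 0) ^ 3 * (1 / 27) - 0) = 4 * Real.pi / 3 / 1458 := by
    ring
  rw [e] at h4
  refine h4.congr' ?_
  filter_upwards [eventually_gt_atTop 1] with n hn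
  simp only [Function.comp]
  have hn' : (1 : ℝ) < n := by exact_mod_cast hn
  have hmem : (0 : Z3) ∈ latBall (((n : ℝ) - 1) / 3) := by
    show (∑ i, (((0 : Z3) i : ℤ) : ℝ) ^ 2) ≤ (((n : ℝ) - 1) / 3) ^ 2
    simp
    positivity
  have hc : ((Nn n : ℕ) : ℝ) = ((latBall (((n : ℝ) - 1) / 3)).ncard : ℝ) - 1 := by
    unfold Nn
    rw [Set.ncard_sdiff_singleton_of_mem hmem]
    have : 1 ≤ (latBall (((n : ℝ) - 1) / 3)).ncard :=
      (Set.ncard_pos (latBall_finite' _)).2 ⟨0, hmem⟩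
    push_cast [this]
    ring
  unfold ee
  rw [hc]
  have hp : (0 : ℝ) < (n : ℝ) - 1 := by linarith
  have hq : (0 : ℝ) < (n : ℝ) + 1 := by linarith
  have e5 : (1 - 2 / ((n : ℝ) + 1)) = ((n : ℝ) - 1) / ((n : ℝ) + 1) := by field_simp; ring
  rw [e5]
  field_simp
  ring

lemma eta_tendsto {a : ℕ → ℝ} (ha : Summable a) (h0 : ∀ n, 0 ≤ a n) :
    Tendsto (fun ℓ : ℕ => eta a ℓ) atTop (𝓝 0) := by
  unfold eta
  have h1 : Tendsto (fun ℓ : ℕ => ∑' n, a n * mi ℓ n) atTop (𝓝 (∑' n, a n * 0)) := by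
    refine tendsto_tsum_of_dominated_convergence (bound := a) ha ?_ ?_
    · intro n
      refine Tendsto.const_mul _ ?_
      unfold mi
      have : Tendsto (fun ℓ : ℕ => 3 * ((n : ℝ) + 1) / (ℓ : ℝ)) atTop (𝓝 0) :=
        tendsto_const_nhds.div_atTop tendsto_natCast_atTop_atTop
      have h2 := (tendsto_const_nhds (x := (1 : ℝ))).min this
      simpa using h2
    · refine Eventually.of_forall fun ℓ n => ?_
      rw [Real.norm_eq_abs, abs_of_nonneg (mul_nonneg (h0 n) (mi_nonneg ℓ n))]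
      calc a n * mi ℓ n ≤ a n * 1 := mul_le_mul_of_nonneg_left (mi_le_one ℓ n) (h0 n)
        _ = a n := mul_one _
  simpa using h1.const_mul 27

end Vale.Agent.P171
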