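import Mathlib
import Vale.Agent.P171.Limits

set_option autoImplicit false
set_option linter.unusedSectionVars false

open MeasureTheory Set Filter Topology
open scoped ENNReal BigOperators

namespace Vale.Agent.P171

lemma good_add_single {A : ℝ} {a : ℕ → ℝ} {η0 : ℝ} (h : Good2 A a η0) {t : ℝ} (ht : 0 ≤ t)
    (ht2 : 27 * t ≤ 2 * η0) (m : ℕ) : Good A (fun n => a n + if n = m then t else 0) := by
  have h1 : Summable (fun n => if n = m then t else 0) := summable_single m t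
  refine ⟨h.A0, h.sum.add h1, fun n => ?_, ?_⟩
  · have := h.nonneg n
    split_ifs <;> linarith
  · rw [Summable.tsum_add h.sum h1, tsum_ite_eq]
    linarith [h.le]

theorem contra {A : ℝ} {a : ℕ → ℝ} {η0 μ : ℝ} (h : Good2 A a η0)
    (H1 : ∀ t, 0 < t → 27 * t ≤ 2 * η0 → ∀ m,
      PP A a μ + t * (ee m / 2 - 1 / 10000) ≤ PP A (fun n => a n + if n = m then t else 0) μ)
    (H2 : ∀ᶠ s in 𝓝[<] (0 : ℝ), PP A a μ + s / 54 - |s| / 10000 ≤ PP A a (μ + s))
    (hd : DifferentiableAt ℝ (PP A a) μ) : False := by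
  obtain ⟨ρ, hρ⟩ : ∃ ρ, HasDerivAt (PP A a) ρ μ := ⟨_, hd.hasDerivAt⟩
  have hη := h.pos
  -- Step 1
  have step1 : ρ ≤ 1 / 54 + 1 / 10000 := by
    refine le_of_tendsto hρ.tendsto_slope_zero_left ?_
    filter_upwards [H2, self_mem_nhdsWithin] with s hs hneg
    have hneg' : s < 0 := hneg
    rw [smul_eq_mul, ← div_eq_inv_mul, div_le_iff_of_neg hneg']
    rw [abs_of_neg hneg'] at hs
    linarith
  -- Step 2
  set r : ℝ := 1 / 54 + 2 / 10000 with hr
  have step2 : ∃ s : ℝ, 0 < s ∧ PP A a (μ + s) < PP A a μ + s * r := by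
    have h1 : ∀ᶠ s in 𝓝[>] (0 : ℝ), s⁻¹ • (PP A a (μ + s) - PP A a μ) < r :=
      hρ.tendsto_slope_zero_right.eventually_lt_const (by rw [hr]; linarith)
    obtain ⟨s, hs1, hs2⟩ := (h1.and self_mem_nhdsWithin).exists
    have hs2' : (0 : ℝ) < s := hs2
    refine ⟨s, hs2', ?_⟩
    rw [smul_eq_mul, inv_mul_lt_iff₀ hs2'] at hs1
    linarith
  obtain ⟨s, hs, hPs⟩ := step2
  set κ := PP A a μ + s * r - PP A a (μ + s) with hκ
  have hκ0 : 0 < κ := by rw [hκ]; linarith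
  set Eμ := Real.exp (μ + A / 2) with hEμ
  set Es := Real.exp (μ + s + A / 2) with hEs
  have hEs0 : 0 < Es := Real.exp_pos _
  have hEμ0 : 0 < Eμ := Real.exp_pos _
  -- Step 3
  obtain ⟨t, ht0, ht1, ht2⟩ : ∃ t : ℝ, 0 < t ∧ 56.7 * t ≤ η0 / 2 ∧ 56.7 * t / η0 * Es ≤ κ / 2 := by
    refine ⟨min (η0 / 200) (κ * η0 / (200 * Es)), by positivity, ?_, ?_⟩
    · have := min_le_left (η0 / 200) (κ * η0 / (200 * Es))
      linarith
    · have h1 := min_le_right (η0 / 200) (κ * η0 / (200 * Es))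
      have h2 : 56.7 * min (η0 / 200) (κ * η0 / (200 * Es)) / η0 * Es ≤
          56.7 * (κ * η0 / (200 * Es)) / η0 * Es := by gcongr
      refine h2.trans ?_
      have : 56.7 * (κ * η0 / (200 * Es)) / η0 * Es = 56.7 / 200 * κ := by
        field_simp
      rw [this]
      linarith
  have hpi1 := Real.pi_gt_d2
  have hpi2 := Real.pi_lt_d2
  -- Step 4
  have step4 : ∀ᶠ ℓ : ℕ in atTop,
      PP A a μ + t * (4.18 / 2916 - 1 / 10000) ≤
      max (4.2 * t * r ^ 2 / 2 + PP A a μ * (1 + 2 / (ℓ : ℝ)) ^ 3 + (eta a ℓ / 2 / η0) * Eμ)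
        (- s * r + PP A a (μ + s) * (1 + 2 / (ℓ : ℝ)) ^ 3 + ((56.7 * t + eta a ℓ / 2) / η0) * Es)
      + Real.log 2 / (ℓ : ℝ) ^ 3 := by
    have hetasmall : ∀ᶠ ℓ : ℕ in atTop, eta a ℓ < η0 :=
      (eta_tendsto h.sum h.nonneg).eventually_lt_const hη
    filter_upwards [hetasmall, eventually_gt_atTop 0] with ℓ hetaℓ hℓ
    have hk : ∀ᶠ m : ℕ in atTop, kap ℓ m * (ℓ : ℝ) ^ 3 < 4.2 :=
      (kap_tendsto hℓ).eventually_lt_const (by linarith)
    have he : ∀ᶠ m : ℕ in atTop, 4.18 / 1458 < ee m :=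
      ee_tendsto.eventually_const_lt (by linarith)
    obtain ⟨m, hm1, hm2⟩ := (hk.and he).exists
    have hc0 : t * kap ℓ m * (ℓ : ℝ) ^ 3 ≤ 4.2 * t := by nlinarith
    have hle : 27 * (t * kap ℓ m * (ℓ : ℝ) ^ 3) / 2 + eta a ℓ / 2 ≤ η0 := by linarith
    have hg := good_add_single h ht0.le (by linarith) m
    have h1 := PP_add_single_le h hℓ (s := s) (r := r) (μ := μ) ht0.le m hg hs.le
      (by rw [hr]; norm_num) hle
    have h2 := H1 t ht0 (by linarith) m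
    have h3 : PP A a μ + t * (4.18 / 2916 - 1 / 10000) ≤ PP A a μ + t * (ee m / 2 - 1 / 10000) := by
      have : (4.18 : ℝ) / 2916 ≤ ee m / 2 := by linarith
      nlinarith
    refine h3.trans (h2.trans (h1.trans ?_))
    refine add_le_add (max_le_max ?_ ?_) le_rfl
    · have h4 : t * kap ℓ m * (ℓ : ℝ) ^ 3 * r ^ 2 / 2 ≤ 4.2 * t * r ^ 2 / 2 := by
        have : 0 ≤ r ^ 2 := sq_nonneg r
        nlinarith
      linarith
    · have h5 : (27 * (t * kap ℓ m * (ℓ : ℝ) ^ 3) / 2 + eta a ℓ / 2) / η0 * Es ≤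
          ((56.7 * t + eta a ℓ / 2) / η0) * Es := by
        have : 27 * (t * kap ℓ m * (ℓ : ℝ) ^ 3) / 2 + eta a ℓ / 2 ≤ 56.7 * t + eta a ℓ / 2 := by
          linarith
        gcongr
      linarith
  -- Step 5
  have hlim : Tendsto (fun ℓ : ℕ =>
      max (4.2 * t * r ^ 2 / 2 + PP A a μ * (1 + 2 / (ℓ : ℝ)) ^ 3 + (eta a ℓ / 2 / η0) * Eμ)
        (- s * r + PP A a (μ + s) * (1 + 2 / (ℓ : ℝ)) ^ 3 + ((56.7 * t + eta a ℓ / 2) / η0) * Es)
      + Real.log 2 / (ℓ : ℝ) ^ 3) atTop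
      (𝓝 (max (4.2 * t * r ^ 2 / 2 + PP A a μ * (1 + 0) ^ 3 + (0 / 2 / η0) * Eμ)
        (- s * r + PP A a (μ + s) * (1 + 0) ^ 3 + ((56.7 * t + 0 / 2) / η0) * Es) + 0)) := by
    have hinv : Tendsto (fun ℓ : ℕ => 2 / (ℓ : ℝ)) atTop (𝓝 0) :=
      tendsto_const_nhds.div_atTop tendsto_natCast_atTop_atTop
    have h13 : Tendsto (fun ℓ : ℕ => (1 + 2 / (ℓ : ℝ)) ^ 3) atTop (𝓝 ((1 + 0) ^ 3)) :=
      (tendsto_const_nhds.add hinv).pow 3
    have heta := eta_tendsto h.sum h.nonneg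
    have hlog : Tendsto (fun ℓ : ℕ => Real.log 2 / (ℓ : ℝ) ^ 3) atTop (𝓝 0) :=
      tendsto_const_nhds.div_atTop ((tendsto_pow_atTop (by norm_num)).comp
        tendsto_natCast_atTop_atTop)
    refine Tendsto.add (Tendsto.max ?_ ?_) hlog
    · refine Tendsto.add (Tendsto.add tendsto_const_nhds (h13.const_mul _)) ?_
      exact ((heta.div_const 2).div_const η0).mul_const Eμ
    · refine Tendsto.add (Tendsto.add tendsto_const_nhds (h13.const_mul _)) ?_
      exact ((tendsto_const_nhds.add (heta.div_const 2)).div_const η0).mul_const Es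
  have hfin := ge_of_tendsto hlim step4
  simp only [add_zero, one_pow, mul_one, zero_div, zero_mul] at hfin
  rcases le_max_iff.1 hfin with h1 | h1
  · have : r ^ 2 < 0.000351 := by rw [hr]; norm_num
    nlinarith
  · have h2 : PP A a (μ + s) = PP A a μ + s * r - κ := by rw [hκ]; ring
    rw [h2] at h1
    have h3 : 0 < t * (4.18 / 2916 - 1 / 10000) := by
      have : (0 : ℝ) < 4.18 / 2916 - 1 / 10000 := by norm_num
      positivity
    nlinarith

end Vale.Agent.P171
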