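import Mathlib

namespace Vale.Agent.P171

open Filter Topology Set

/-- Ekeland's variational principle (for finite-valued, nonnegative, lower semicontinuous `G`). -/
theorem ekeland {X : Type*} [MetricSpace X] [CompleteSpace X] (G : X → ℝ)
    (hG : LowerSemicontinuous G) (hb : ∀ x, 0 ≤ G x) (x0 : X) (ε : ℝ) (hε : 0 < ε) :
    ∃ x, G x + ε * dist x x0 ≤ G x0 ∧ ∀ y, G x ≤ G y + ε * dist y x := by
  classical
  -- the sets S x = {y | G y + ε * dist y x ≤ G x}
  let S : X → Set X := fun x => {y | G y + ε * dist y x ≤ G x}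
  have hself : ∀ x, x ∈ S x := by
    intro x; simp [S]
  have htrans : ∀ x y z, y ∈ S x → z ∈ S y → z ∈ S x := by
    intro x y z hy hz
    simp only [S, mem_setOf_eq] at *
    have := dist_triangle z y x
    nlinarith
  have hclosed : ∀ x, IsClosed (S x) := by
    intro x
    have h1 : LowerSemicontinuous (fun y => G y + ε * dist y x) := by
      apply hG.add
      apply Continuous.lowerSemicontinuous
      fun_prop
    have := h1.isClosed_preimage (G x)
    simpa [S, Set.preimage, Set.Iic] using this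
  -- choose next point almost minimizing G over S x
  have hnext : ∀ x, ∀ δ : ℝ, 0 < δ → ∃ y ∈ S x, ∀ z ∈ S x, G y ≤ G z + δ := by
    intro x δ hδ
    have hne : (G '' S x).Nonempty := ⟨G x, x, hself x, rfl⟩
    have hbd : BddBelow (G '' S x) := ⟨0, by rintro _ ⟨z, _, rfl⟩; exact hb z⟩
    obtain ⟨_, ⟨y, hy, rfl⟩, hlt⟩ := exists_lt_of_csInf_lt hne (lt_add_of_pos_right (sInf (G '' S x)) hδ)
    refine ⟨y, hy, fun z hz => ?_⟩
    have := csInf_le hbd (mem_image_of_mem G hz)
    linarith
  choose! next hnext_mem hnext_le using hnext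
  -- sequence
  let u : ℕ → X := fun n => Nat.rec x0 (fun n x => next x ((1/2 : ℝ) ^ n)) n
  have hu0 : u 0 = x0 := rfl
  have hus : ∀ n, u (n+1) = next (u n) ((1/2 : ℝ) ^ n) := fun n => rfl
  have hpos : ∀ n : ℕ, (0:ℝ) < (1/2 : ℝ)^n := fun n => by positivity
  have hmem : ∀ n, u (n+1) ∈ S (u n) := by
    intro n; rw [hus]; exact hnext_mem _ _ (hpos n)
  have hmono : ∀ n m, n ≤ m → u m ∈ S (u n) := by
    intro n m h
    induction m, h using Nat.le_induction with
    | base => exact hself _
    | succ m _ ih => exact htrans _ _ _ ih (hmem m)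
  -- points of S (u (n+1)) are close to u (n+1)
  have hdiam : ∀ n, ∀ z ∈ S (u (n+1)), ε * dist z (u (n+1)) ≤ (1/2 : ℝ)^n := by
    intro n z hz
    have hz' : z ∈ S (u n) := htrans _ _ _ (hmem n) hz
    have h1 := hnext_le (u n) ((1/2 : ℝ)^n) (hpos n) z hz'
    rw [← hus] at h1
    have h2 : G z + ε * dist z (u (n+1)) ≤ G (u (n+1)) := hz
    linarith
  have hcauchy : CauchySeq u := by
    rw [← cauchySeq_shift 1]
    apply cauchySeq_of_le_geometric (1/2 : ℝ) (1/ε) (by norm_num)
    intro n
    have h1 := hdiam n (u (n+1+1)) (hmem (n+1))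
    rw [dist_comm]
    rw [div_mul_eq_mul_div, one_mul, le_div_iff₀ hε]
    linarith
  obtain ⟨x, hx⟩ := cauchySeq_tendsto_of_complete hcauchy
  have hxS : ∀ n, x ∈ S (u n) := by
    intro n
    apply (hclosed (u n)).mem_of_tendsto hx
    filter_upwards [eventually_ge_atTop n] with m hm
    exact hmono n m hm
  refine ⟨x, ?_, ?_⟩
  · have := hxS 0
    simpa [S, hu0] using this
  · intro y
    by_contra hcon
    push Not at hcon
    have hy : y ∈ S x := le_of_lt hcon
    have hyn : ∀ n, y ∈ S (u n) := fun n => htrans _ _ _ (hxS n) hy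
    -- then y = lim u = x
    have hlim : Tendsto (fun n => u (n+1)) atTop (𝓝 y) := by
      rw [tendsto_iff_dist_tendsto_zero]
      have hz : Tendsto (fun n : ℕ => (1/ε) * (1/2 : ℝ)^n) atTop (𝓝 0) := by
        have := tendsto_pow_atTop_nhds_zero_of_lt_one (r := (1/2 : ℝ)) (by norm_num) (by norm_num)
        simpa using this.const_mul (1/ε)
      apply squeeze_zero (fun n => dist_nonneg) _ hz
      intro n
      have h1 := hdiam n y (hyn (n+1))
      rw [dist_comm] at h1
      rw [div_mul_eq_mul_div, one_mul, le_div_iff₀ hε]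
      linarith
    have hx' : Tendsto (fun n => u (n+1)) atTop (𝓝 x) := hx.comp (tendsto_add_atTop_nat 1)
    have : y = x := tendsto_nhds_unique hlim hx'
    subst this
    simp at hcon

end Vale.Agent.P171
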