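import Mathlib
import Vale.Agent.P171.Contra
import Vale.Agent.P171.Ekeland

set_option autoImplicit false
set_option linter.unusedSectionVars false

open MeasureTheory Set Filter Topology
open scoped ENNReal BigOperators

namespace Vale.Agent.P171

lemma card_le_SS {ι : Type} [Fintype ι] (x : ι → E3) : (Fintype.card ι : ℝ) ≤ SS x := by
  rw [SS_eq]
  have : 0 ≤ V sc x := V_nonneg x fun i j _ => by unfold sc; split_ifs <;> norm_num
  linarith

lemma V_psi_lip {a b : ℕ → ℝ} (ha : Summable a) (ha0 : ∀ n, 0 ≤ a n) (hb : Summable b)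
    (hb0 : ∀ n, 0 ≤ b n) {ι : Type} [Fintype ι] (x : ι → E3) :
    V (fun p q => psi a (dist p q)) x ≤ V (fun p q => psi b (dist p q)) x +
      (27/2) * (∑' n, |a n - b n|) * SS x := by
  have hd : Summable (fun n => |a n - b n|) := (ha.sub hb).abs
  have hd0 : ∀ n, 0 ≤ |a n - b n| := fun n => abs_nonneg _
  have h1 : V (fun p q => psi a (dist p q)) x ≤
      V (fun p q => psi b (dist p q) + psi (fun n => |a n - b n|) (dist p q)) x := by
    refine V_mono x fun i j _ => ?_
    unfold psi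
    rw [← Summable.tsum_add (summable_aw hb hb0 _) (summable_aw hd hd0 _)]
    refine Summable.tsum_le_tsum (fun n => ?_) (summable_aw ha ha0 _)
      ((summable_aw hb hb0 _).add (summable_aw hd hd0 _))
    rw [← add_mul]
    refine mul_le_mul_of_nonneg_right ?_ (wr_nonneg n _)
    linarith [le_abs_self (a n - b n)]
  rw [V_add] at h1
  have h2 := V_psi_le hd hd0 x
  linarith

theorem PP_lip {A : ℝ} {a b : ℕ → ℝ} {η0 : ℝ} (ha : Good A a) (hb : Good2 A b η0) (μ ν : ℝ)
    (hδ : (27/2) * (∑' n, |a n - b n|) + |μ - ν| ≤ η0) :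
    PP A a μ ≤ PP A b ν +
      (((27/2) * (∑' n, |a n - b n|) + |μ - ν|) / η0) * Real.exp (ν + A / 2) := by
  set δ := (27/2) * (∑' n, |a n - b n|) + |μ - ν| with hδdef
  have hδ0 : 0 ≤ δ := by
    have : 0 ≤ ∑' n, |a n - b n| := tsum_nonneg fun n => abs_nonneg _
    positivity
  have hpt : ∀ ω : Conf E3, ham (uu A a) μ ω ≤ HS A b ν δ ω := by
    intro ω
    rw [HS_eq]
    unfold ham
    rw [V_uu, V_uu]
    have h1 := V_psi_lip ha.sum ha.nonneg hb.sum hb.nonneg ω.2
    have h2 := card_le_SS ω.2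
    rw [Fintype.card_fin] at h2
    have h3 : μ * ω.1 ≤ ν * ω.1 + |μ - ν| * SS ω.2 := by
      have h4 : (μ - ν) * ω.1 ≤ |μ - ν| * ω.1 :=
        mul_le_mul_of_nonneg_right (le_abs_self _) (Nat.cast_nonneg _)
      have h5 : |μ - ν| * ω.1 ≤ |μ - ν| * SS ω.2 := mul_le_mul_of_nonneg_left h2 (abs_nonneg _)
      linarith
    rw [hδdef]
    linarith
  have hgg : ∀ M : ℝ, 0 ≤ M → gg A a μ M ≤ gg A b ν M + (δ / η0) * (Real.exp (ν + A / 2) * M ^ 3) := by
    intro M hM
    have hvol : volume (cube M) ≤ ENNReal.ofReal (M ^ 3) := (volume_cube M hM).le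
    have f1 : Xi (cube M) (HS A b ν δ) ≠ ⊤ :=
      ne_top_of_le_ne_top ENNReal.ofReal_ne_top
        (Xi_HS_le hb ν hδ (measurableSet_cube M) (by positivity) hvol)
    have h1 := log_toReal_mono (one_le_Xi (measurableSet_cube M) (measurable_uu A ha.sum ha.nonneg) μ)
      f1 (Xi_mono le_rfl (measurableSet_cube M) fun ω _ => hpt ω)
    exact h1.trans (interp hb ν hδ0 hδ (measurableSet_cube M) (by positivity) hvol)
  have hlim : Tendsto (fun M : ℝ => gg A b ν M / M ^ 3 + (δ / η0) * Real.exp (ν + A / 2)) atTop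
      (𝓝 (PP A b ν + (δ / η0) * Real.exp (ν + A / 2))) := (PP_tendsto hb.good ν).add_const _
  refine le_of_tendsto_of_tendsto (PP_tendsto ha μ) hlim ?_
  filter_upwards [eventually_gt_atTop 0] with M hM
  have h1 := hgg M hM.le
  have hM3 : (0 : ℝ) < M ^ 3 := by positivity
  have h2 : gg A b ν M / M ^ 3 + (δ / η0) * Real.exp (ν + A / 2) =
      (gg A b ν M + (δ / η0) * (Real.exp (ν + A / 2) * M ^ 3)) / M ^ 3 := by
    field_simp
  rw [h2]
  exact div_le_div_of_nonneg_right h1 hM3.le

abbrev L1 : Type := lp (fun _ : ℕ => ℝ) 1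

lemma L1_summable (f : L1) : Summable (fun n => |f n|) := by
  have h := lp.memℓp f
  rw [memℓp_gen_iff (by simp)] at h
  simpa using h

lemma L1_norm (f : L1) : ‖f‖ = ∑' n, |f n| := by
  rw [lp.norm_eq_tsum_rpow (by simp)]
  simp

lemma L1_sum (f : L1) : Summable (fun n => f n) := (L1_summable f).of_abs

lemma L1_dist (f g : L1) : dist f g = ∑' n, |f n - g n| := by
  rw [dist_eq_norm, L1_norm]
  rfl

/-- the complete metric space of admissible parameters -/
def XX : Set (L1 × ℝ) := {p | (∀ n, 0 ≤ p.1 n) ∧ ‖p.1‖ ≤ 20000 ∧ |p.2| ≤ 20000}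

lemma coord_continuous (n : ℕ) : Continuous (fun p : L1 × ℝ => p.1 n) := by
  refine Metric.continuous_iff.2 fun b ε hε => ⟨ε, hε, fun a ha => ?_⟩
  have h1 : |a.1 n - b.1 n| ≤ dist a.1 b.1 := by
    rw [L1_dist]
    exact (L1_summable (a.1 - b.1)).le_tsum n (fun m _ => abs_nonneg _)
  rw [Real.dist_eq]
  exact lt_of_le_of_lt (h1.trans (le_max_left _ _)) ha

lemma XX_closed : IsClosed XX := by
  have h1 : XX = (⋂ n, {p : L1 × ℝ | 0 ≤ p.1 n}) ∩ ({p | ‖p.1‖ ≤ 20000} ∩ {p | |p.2| ≤ 20000}) := by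
    ext p
    simp [XX]
  rw [h1]
  refine IsClosed.inter (isClosed_iInter fun n => isClosed_le continuous_const (coord_continuous n)) ?_
  exact IsClosed.inter (isClosed_le (continuous_norm.comp continuous_fst) continuous_const)
    (isClosed_le (continuous_abs.comp continuous_snd) continuous_const)

noncomputable def AA : ℝ := 600000

lemma XX_good2 {p : L1 × ℝ} (hp : p ∈ XX) : Good2 AA (fun n => p.1 n) 1 := by
  obtain ⟨h0, h1, h2⟩ := hp
  refine ⟨by unfold AA; norm_num, L1_sum p.1, h0, one_pos, ?_⟩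
  rw [L1_norm] at h1
  have : ∑' n, p.1 n = ∑' n, |p.1 n| := tsum_congr fun n => (abs_of_nonneg (h0 n)).symm
  rw [this]
  unfold AA
  linarith

noncomputable def GG (p : XX) : ℝ :=
  PP AA (fun n => p.1.1 n) p.1.2 - (1/2) * (p.1.2 / 27 + ∑' n, p.1.1 n * ee n)

lemma GG_nonneg (p : XX) : 0 ≤ GG p := by
  have hg := (XX_good2 p.2).good
  have h1 := PP_nonneg hg p.1.2
  have h2 := PP_lower hg p.1.2
  unfold GG
  linarith

lemma PP_continuous : Continuous (fun p : XX => PP AA (fun n => p.1.1 n) p.1.2) := by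
  set K : ℝ := (29/2) * Real.exp (20000 + AA / 2) with hK
  have hK0 : 0 < K := by positivity
  have key : ∀ p q : XX, (29/2) * dist p q ≤ 1 →
      PP AA (fun n => p.1.1 n) p.1.2 ≤ PP AA (fun n => q.1.1 n) q.1.2 + K * dist p q := by
    intro p q hpq
    have hd1 : ∑' n, |p.1.1 n - q.1.1 n| ≤ dist p q := by
      rw [← L1_dist]; exact le_max_left _ _
    have hd2 : |p.1.2 - q.1.2| ≤ dist p q := by
      rw [← Real.dist_eq]; exact le_max_right _ _
    have hδ : (27/2) * (∑' n, |p.1.1 n - q.1.1 n|) + |p.1.2 - q.1.2| ≤ (29/2) * dist p q := by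
      linarith
    have h1 := PP_lip (XX_good2 p.2).good (XX_good2 q.2) p.1.2 q.1.2 (hδ.trans hpq)
    refine h1.trans ?_
    rw [div_one]
    have hq2 : q.1.2 ≤ 20000 := (le_abs_self _).trans q.2.2.2
    have h2 : Real.exp (q.1.2 + AA / 2) ≤ Real.exp (20000 + AA / 2) :=
      Real.exp_le_exp.2 (by linarith)
    have h3 : ((27/2) * (∑' n, |p.1.1 n - q.1.1 n|) + |p.1.2 - q.1.2|) * Real.exp (q.1.2 + AA / 2) ≤
        ((29/2) * dist p q) * Real.exp (20000 + AA / 2) := by
      refine mul_le_mul hδ h2 (Real.exp_pos _).le (by positivity)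
    rw [hK]
    linarith
  refine Metric.continuous_iff.2 fun q ε hε => ⟨min (1/29) (ε / (2 * K)), by positivity, fun p hp => ?_⟩
  have h1 : dist p q < 1/29 := lt_of_lt_of_le hp (min_le_left _ _)
  have h2 : dist p q < ε / (2 * K) := lt_of_lt_of_le hp (min_le_right _ _)
  have h3 := key p q (by linarith)
  have h4 := key q p (by rw [dist_comm]; linarith)
  rw [dist_comm q p] at h4
  have h5 : K * dist p q < ε := by
    have : K * dist p q ≤ K * (ε / (2 * K)) := mul_le_mul_of_nonneg_left h2.le hK0.le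
    have e : K * (ε / (2 * K)) = ε / 2 := by field_simp
    linarith
  rw [Real.dist_eq, abs_lt]
  constructor <;> linarith

lemma lin_continuous : Continuous (fun p : XX => ∑' n, p.1.1 n * ee n) := by
  refine Metric.continuous_iff.2 fun q ε hε => ⟨ε, hε, fun p hp => ?_⟩
  have hs : ∀ r : XX, Summable (fun n => r.1.1 n * ee n) :=
    fun r => summable_ae (L1_sum r.1.1) r.2.1
  rw [Real.dist_eq, ← Summable.tsum_sub (hs p) (hs q)]
  have h1 : ∀ n, |p.1.1 n * ee n - q.1.1 n * ee n| ≤ |p.1.1 n - q.1.1 n| := by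
    intro n
    rw [← sub_mul, abs_mul, abs_of_nonneg (ee_nonneg n)]
    calc |p.1.1 n - q.1.1 n| * ee n ≤ |p.1.1 n - q.1.1 n| * 1 :=
          mul_le_mul_of_nonneg_left (ee_le n) (abs_nonneg _)
      _ = _ := mul_one _
  have hs2 : Summable (fun n => |p.1.1 n - q.1.1 n|) := L1_summable (p.1.1 - q.1.1)
  have hs3 : Summable (fun n => |p.1.1 n * ee n - q.1.1 n * ee n|) :=
    Summable.of_nonneg_of_le (fun n => abs_nonneg _) h1 hs2
  have h2 : |∑' n, (p.1.1 n * ee n - q.1.1 n * ee n)| ≤ ∑' n, |p.1.1 n * ee n - q.1.1 n * ee n| := by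
    have := norm_tsum_le_tsum_norm (f := fun n => p.1.1 n * ee n - q.1.1 n * ee n)
      (by simpa [Real.norm_eq_abs] using hs3)
    simpa [Real.norm_eq_abs] using this
  have h3 : ∑' n, |p.1.1 n * ee n - q.1.1 n * ee n| ≤ ∑' n, |p.1.1 n - q.1.1 n| :=
    Summable.tsum_le_tsum h1 hs3 hs2
  have h4 : ∑' n, |p.1.1 n - q.1.1 n| ≤ dist p q := by
    rw [← L1_dist]; exact le_max_left _ _
  exact lt_of_le_of_lt (h2.trans (h3.trans h4)) hp

lemma GG_continuous : Continuous GG := by
  unfold GG
  exact PP_continuous.sub ((((continuous_snd.comp continuous_subtype_val).div_const 27).add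
    lin_continuous).const_mul _)

noncomputable def x00 : XX := ⟨(0, 0), by
  refine ⟨fun n => ?_, ?_, ?_⟩
  · simp
  · simp
  · simp⟩

lemma GG_x00 : GG x00 ≤ 1 := by
  have hg := (XX_good2 x00.2).good
  have e1 : (fun n => x00.1.1 n) = fun _ => (0 : ℝ) := by
    funext n; rfl
  have e2 : x00.1.2 = 0 := rfl
  unfold GG
  rw [e2]
  have e3 : ∑' n, x00.1.1 n * ee n = 0 := by
    have : ∀ n, x00.1.1 n * ee n = 0 := by
      intro n
      have : x00.1.1 n = 0 := congrFun e1 n
      rw [this, zero_mul]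
    rw [tsum_congr this, tsum_zero]
  rw [e3]
  have h1 : PP AA (fun n => x00.1.1 n) 0 ≤ 1 := by
    refine le_of_tendsto (PP_tendsto hg 0) ?_
    filter_upwards [eventually_gt_atTop 0] with M hM
    rw [div_le_iff₀ (by positivity), one_mul]
    have h2 : Xi (cube M) (ham (uu AA (fun n => x00.1.1 n)) 0) ≤
        ENNReal.ofReal (Real.exp (Real.exp 0 * M ^ 3)) := by
      refine Xi_le_ideal (measurableSet_cube M) (measurable_uu AA hg.sum hg.nonneg) 0 0 (M ^ 3)
        (by positivity) (volume_cube M hM.le).le fun ω _ => ?_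
      unfold ham
      rw [V_uu]
      have h3 : V (fun x y => psi (fun n => x00.1.1 n) (dist x y)) ω.2 = 0 := by
        rw [e1]
        refine (V_congr (v := fun _ _ => (0 : ℝ)) _ fun i j _ => ?_).trans (V_zero ω.2)
        unfold psi; simp
      have h4 : 0 ≤ V core ω.2 := V_nonneg _ fun i j _ => by unfold core; split_ifs <;> norm_num
      rw [h3]
      have : 0 ≤ AA * V core ω.2 := mul_nonneg (by unfold AA; norm_num) h4
      linarith
    have h5 := log_toReal_mono (one_le_Xi (measurableSet_cube M) (measurable_uu AA hg.sum hg.nonneg) 0)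
      ENNReal.ofReal_ne_top h2
    rw [ENNReal.toReal_ofReal (Real.exp_pos _).le, Real.log_exp, Real.exp_zero, one_mul] at h5
    exact h5
  linarith

/-- Existence of parameters for which the pressure is not differentiable. -/
theorem exists_nondiff : ∃ (a : ℕ → ℝ) (μ : ℝ), Good2 AA a 1 ∧ ¬ DifferentiableAt ℝ (PP AA a) μ := by
  have : CompleteSpace XX := XX_closed.completeSpace_coe
  obtain ⟨x, hx1, hx2⟩ := ekeland GG GG_continuous.lowerSemicontinuous GG_nonneg x00 (1 / 10000)
    (by norm_num)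
  have hdist : dist x x00 ≤ 10000 := by
    have h1 := GG_nonneg x
    have h2 := GG_x00
    linarith
  have hn1 : ‖x.1.1‖ ≤ 10000 := by
    have : dist x.1.1 (0 : L1) ≤ dist x x00 := le_max_left _ _
    rw [dist_zero_right] at this
    linarith
  have hn2 : |x.1.2| ≤ 10000 := by
    have : dist x.1.2 (0 : ℝ) ≤ dist x x00 := le_max_right _ _
    rw [Real.dist_eq, sub_zero] at this
    linarith
  refine ⟨fun n => x.1.1 n, x.1.2, XX_good2 x.2, fun hd => ?_⟩
  refine contra (XX_good2 x.2) ?_ ?_ hd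
  · intro t ht ht2 m
    obtain ⟨sg, hsg⟩ : ∃ sg : L1, ∀ n, sg n = if n = m then t else 0 := by
      refine ⟨lp.single (E := fun _ : ℕ => ℝ) 1 m t, fun n => ?_⟩
      by_cases h : n = m
      · subst h
        rw [lp.single_apply_self, if_pos rfl]
      · rw [lp.single_apply_ne _ _ _ h, if_neg h]
    have hcoe : ∀ n, (x.1.1 + sg) n = x.1.1 n + if n = m then t else 0 := by
      intro n
      have h1 : (x.1.1 + sg) n = x.1.1 n + sg n := rfl
      rw [h1, hsg]
    have hnorm : ‖sg‖ = t := by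
      rw [L1_norm]
      have : ∀ n, |sg n| = if n = m then t else 0 := by
        intro n
        rw [hsg]
        split_ifs
        · exact abs_of_pos ht
        · exact abs_zero
      rw [tsum_congr this, tsum_ite_eq]
    set y : XX := ⟨(x.1.1 + sg, x.1.2), by
      refine ⟨fun n => ?_, ?_, ?_⟩
      · show 0 ≤ (x.1.1 + sg) n
        rw [hcoe]
        have := x.2.1 n
        split_ifs <;> linarith
      · show ‖x.1.1 + sg‖ ≤ 20000
        refine (norm_add_le _ _).trans ?_
        rw [hnorm]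
        linarith
      · show |x.1.2| ≤ 20000
        linarith⟩ with hy
    have hdy : dist y x = t := by
      have h1 : dist y x = max (dist (x.1.1 + sg) x.1.1) (dist x.1.2 x.1.2) := rfl
      rw [h1, dist_self, dist_eq_norm, add_sub_cancel_left, hnorm, max_eq_left ht.le]
    have h1 := hx2 y
    rw [hdy] at h1
    have e1 : (fun n => y.1.1 n) = fun n => x.1.1 n + if n = m then t else 0 := by
      funext n; exact hcoe n
    have e2 : y.1.2 = x.1.2 := rfl
    have e3 : ∑' n, y.1.1 n * ee n = ∑' n, x.1.1 n * ee n + t * ee m := by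
      have : ∀ n, y.1.1 n * ee n = x.1.1 n * ee n + (if n = m then t * ee m else 0) := by
        intro n
        have h2 : y.1.1 n = x.1.1 n + if n = m then t else 0 := hcoe n
        rw [h2]
        by_cases h : n = m
        · subst h; simp; ring
        · simp [h]
      rw [tsum_congr this, Summable.tsum_add (summable_ae (L1_sum x.1.1) x.2.1)
        (summable_single m (t * ee m)), tsum_ite_eq]
    unfold GG at h1
    rw [e1, e2, e3] at h1
    linarith
  · have hev : ∀ᶠ s in 𝓝[<] (0 : ℝ), -1 < s := by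
      have : Set.Ioo (-1 : ℝ) 0 ∈ 𝓝[<] (0 : ℝ) := Ioo_mem_nhdsLT (by norm_num)
      filter_upwards [this] with s hs
      exact hs.1
    filter_upwards [hev, self_mem_nhdsWithin] with s hs1 hs0
    have hs0' : s < 0 := hs0
    set y : XX := ⟨(x.1.1, x.1.2 + s), by
      refine ⟨x.2.1, ?_, ?_⟩
      · show ‖x.1.1‖ ≤ 20000
        linarith
      · show |x.1.2 + s| ≤ 20000
        refine (abs_add_le _ _).trans ?_
        have : |s| ≤ 1 := by rw [abs_le]; constructor <;> linarith
        linarith⟩ with hy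
    have hdy : dist y x = |s| := by
      have h1 : dist y x = max (dist x.1.1 x.1.1) (dist (x.1.2 + s) x.1.2) := rfl
      rw [h1, dist_self, Real.dist_eq, add_sub_cancel_left, max_eq_right (abs_nonneg s)]
    have h1 := hx2 y
    rw [hdy] at h1
    have e1 : (fun n => y.1.1 n) = fun n => x.1.1 n := rfl
    have e2 : y.1.2 = x.1.2 + s := rfl
    have e3 : ∑' n, y.1.1 n * ee n = ∑' n, x.1.1 n * ee n := rfl
    unfold GG at h1
    rw [e1, e2, e3] at h1
    linarith

end Vale.Agent.P171
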