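import Mathlib

/-!
# Classical particles in `ℝ³` with a radial pair potential: definitions for P171

A radial pair potential is given by a function `φ : ℝ → ℝ` of which only the values `φ r`, `r > 0`
matter (coincident particles form a null set, and stability is tested on distinct points).
-/

set_option autoImplicit false

open MeasureTheory Filter Topology

namespace Vale.Agent.P171

/-- Three-dimensional Euclidean space. -/
abbrev Space : Type := EuclideanSpace ℝ (Fin 3)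

/-- The cube `Λ_L = [0,L]³`. -/
def Box3 (L : ℝ) : Set Space := {x | ∀ i, 0 ≤ x i ∧ x i ≤ L}

/-- The set `Λ_L^N` of configurations of `N` labelled particles in the cube. -/
def BoxPow (L : ℝ) (N : ℕ) : Set (Fin N → Space) := {x | ∀ k, x k ∈ Box3 L}

/-- The energy `U_N(x_1,…,x_N) = ∑_{i<j} φ(|x_i - x_j|)`. -/
noncomputable def energy (φ : ℝ → ℝ) {N : ℕ} (x : Fin N → Space) : ℝ :=
  ∑ i, ∑ j, if i < j then φ (dist (x i) (x j)) else 0

/-- `φ` is locally bounded on `(0,∞)`. -/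
def LocallyBounded (φ : ℝ → ℝ) : Prop :=
  ∀ a b : ℝ, 0 < a → ∃ C : ℝ, ∀ r, a ≤ r → r ≤ b → |φ r| ≤ C

/-- Stability: `U_N ≥ -B N` for all `N` and all configurations of distinct points. -/
def IsStable (φ : ℝ → ℝ) : Prop :=
  ∃ B : ℝ, ∀ (N : ℕ) (x : Fin N → Space), Function.Injective x → -(B * N) ≤ energy φ x

/-- Temperedness: `φ(r) ≤ C r^{-3-ε}` for all `r ≥ R₀`. -/
def IsTempered (φ : ℝ → ℝ) : Prop :=
  ∃ C ε R₀ : ℝ, 0 < C ∧ 0 < ε ∧ 0 < R₀ ∧ ∀ r, R₀ ≤ r → φ r ≤ C * r ^ (-3 - ε)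

/-- `Z_{L,N}(β) = (1/N!) ∫_{Λ_L^N} exp(-β U_N(x_1,…,x_N)) dx_1⋯dx_N`. -/
noncomputable def canonicalZ (φ : ℝ → ℝ) (β L : ℝ) (N : ℕ) : ℝ :=
  (1 / (N.factorial : ℝ)) * ∫ x in BoxPow L N, Real.exp (-β * energy φ x)

/-- The grand canonical partition function `∑_{N ≥ 0} z^N Z_{L,N}(β)`. -/
noncomputable def grandZ (φ : ℝ → ℝ) (β z L : ℝ) : ℝ :=
  ∑' N : ℕ, z ^ N * canonicalZ φ β L N

/-- `p` is the function `z ↦ Π(β,z) = lim_{L→∞} L⁻³ log ∑_N z^N Z_{L,N}(β)` on `z > 0`; all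
integrals and series occurring here are required to converge. -/
structure IsPressure (φ : ℝ → ℝ) (β : ℝ) (p : ℝ → ℝ) : Prop where
  integrable : ∀ (L : ℝ) (N : ℕ), 0 < L →
    IntegrableOn (fun x : Fin N → Space => Real.exp (-β * energy φ x)) (BoxPow L N)
  summable : ∀ z L : ℝ, 0 < z → 0 < L → Summable (fun N : ℕ => z ^ N * canonicalZ φ β L N)
  tendsto : ∀ z : ℝ, 0 < z →
    Tendsto (fun L : ℝ => (L ^ 3)⁻¹ * Real.log (grandZ φ β z L)) atTop (𝓝 (p z))

/-- Phase transition in the sense (a) of the problem: for some `β > 0` the limit `Π(β,z)` exists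
for all `z > 0` and `z ↦ Π(β,z)` is not differentiable at some point. -/
def HasPhaseTransitionA (φ : ℝ → ℝ) : Prop :=
  ∃ β : ℝ, 0 < β ∧ ∃ p : ℝ → ℝ, IsPressure φ β p ∧ ∃ z₀ : ℝ, 0 < z₀ ∧ ¬ DifferentiableAt ℝ p z₀

end Vale.Agent.P171
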