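import Mathlib
import Vale.Agent.P171.Defs
import Vale.Agent.P171.Assembly

set_option autoImplicit false
set_option linter.unusedSectionVars false

open MeasureTheory Set Filter Topology
open scoped ENNReal BigOperators

namespace Vale.Agent.P171

/-- the potential -/
noncomputable def phi (A : ℝ) (a : ℕ → ℝ) (r : ℝ) : ℝ := A * (if r < 2 then 1 else 0) - psi a r

lemma uu_eq_phi (A : ℝ) (a : ℕ → ℝ) (x y : E3) : uu A a x y = - phi A a (dist x y) := by
  unfold uu phi core; ring

lemma energy_eq (A : ℝ) (a : ℕ → ℝ) {N : ℕ} (x : Fin N → E3) :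
    energy (phi A a) x = - V (uu A a) x := by
  classical
  unfold energy V
  have h1 : ∀ i j : Fin N, (if i = j then (0 : ℝ) else uu A a (x i) (x j)) =
      - (if i < j then phi A a (dist (x i) (x j)) else 0) -
        (if j < i then phi A a (dist (x j) (x i)) else 0) := by
    intro i j
    rcases lt_trichotomy i j with h | h | h
    · rw [if_neg h.ne, if_pos h, if_neg h.asymm, uu_eq_phi]; ring
    · subst h; simp
    · rw [if_neg h.ne', if_neg h.asymm, if_pos h, uu_eq_phi, dist_comm]; ring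
  have h2 : ∑ i : Fin N, ∑ j : Fin N, @ite ℝ (i = j) (Classical.propDecidable (i = j)) 0 (uu A a (x i) (x j)) =
      ∑ i : Fin N, ∑ j : Fin N, (- (if i < j then phi A a (dist (x i) (x j)) else 0) -
        (if j < i then phi A a (dist (x j) (x i)) else 0)) := by
    refine Finset.sum_congr rfl fun i _ => Finset.sum_congr rfl fun j _ => ?_
    rw [← h1 i j]
    split_ifs <;> rfl
  rw [h2]
  simp only [Finset.sum_sub_distrib, Finset.sum_neg_distrib]
  have h3 : ∑ i : Fin N, ∑ j : Fin N, (if j < i then phi A a (dist (x j) (x i)) else 0) =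
      ∑ i : Fin N, ∑ j : Fin N, (if i < j then phi A a (dist (x i) (x j)) else 0) :=
    Finset.sum_comm
  rw [h3]
  ring

lemma measurable_phi (A : ℝ) {a : ℕ → ℝ} (ha : Summable a) (h0 : ∀ n, 0 ≤ a n) :
    Measurable (phi A a) := by
  unfold phi
  refine Measurable.sub (Measurable.const_mul ?_ A) (measurable_psi ha h0)
  exact Measurable.ite measurableSet_Iio measurable_const measurable_const

lemma phi_bounded {A : ℝ} {a : ℕ → ℝ} (h : Good A a) (r : ℝ) : |phi A a r| ≤ A + ∑' n, a n := by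
  have h1 := psi_nonneg h.nonneg r
  have h2 := psi_le h.sum h.nonneg r
  have h3 := h.A0
  have h4 : 0 ≤ A * (if r < 2 then (1 : ℝ) else 0) ∧ A * (if r < 2 then (1 : ℝ) else 0) ≤ A := by
    split_ifs
    · simp [h3]
    · simp [h3]
  unfold phi
  rw [abs_le]
  constructor <;> linarith [h4.1, h4.2]

lemma boxPow_eq (L : ℝ) (N : ℕ) : BoxPow L N = {x : Fin N → E3 | ∀ i, x i ∈ cube L} := rfl

lemma measurableSet_boxPow (L : ℝ) (N : ℕ) : MeasurableSet (BoxPow L N) := by
  have : BoxPow L N = ⋂ i, (fun x : Fin N → E3 => x i) ⁻¹' (cube L) := by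
    ext x; simp [BoxPow, cube, Box3]
  rw [this]
  exact MeasurableSet.iInter fun i => (measurable_pi_apply i) (measurableSet_cube L)

lemma J_eq {A : ℝ} {a : ℕ → ℝ} (h : Good A a) (μ L : ℝ) (N : ℕ) :
    J (cube L) (uu A a) μ (Fin N) =
      ENNReal.ofReal (Real.exp (μ * N)) *
        ∫⁻ x in BoxPow L N, ENNReal.ofReal (Real.exp (-1 * energy (phi A a) x)) := by
  have hm : Measurable (fun x : Fin N → E3 => ENNReal.ofReal (Real.exp (-1 * energy (phi A a) x))) := by
    simp only [energy_eq]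
    exact ENNReal.measurable_ofReal.comp (Real.measurable_exp.comp
      (((measurable_V (measurable_uu A h.sum h.nonneg)).neg).const_mul _))
  unfold J
  rw [← lintegral_indicator (measurableSet_boxPow L N), ← lintegral_const_mul _
    (hm.indicator (measurableSet_boxPow L N))]
  refine lintegral_congr fun x => ?_
  rw [indprod_eq]
  by_cases hx : x ∈ BoxPow L N
  · rw [Set.indicator_of_mem (by exact hx), Set.indicator_of_mem hx, energy_eq, Pi.one_apply, one_mul,
      ← ENNReal.ofReal_mul (Real.exp_pos _).le, ← Real.exp_add, Fintype.card_fin]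
    congr 2
    ring
  · rw [Set.indicator_of_notMem (by exact hx), Set.indicator_of_notMem hx]
    simp

lemma J_ne_top {A : ℝ} {a : ℕ → ℝ} (h : Good A a) (μ : ℝ) {L : ℝ} (hL : 0 < L) (N : ℕ) :
    J (cube L) (uu A a) μ (Fin N) ≠ ⊤ := by
  have h1 := Xi_cube_ne_top h μ hL.le
  rw [Xi_eq (measurableSet_cube L) (measurable_uu A h.sum h.nonneg)] at h1
  have h2 := ENNReal.ne_top_of_tsum_ne_top h1 N
  intro hcon
  rw [hcon] at h2
  apply h2
  rw [ENNReal.mul_top]
  exact ENNReal.inv_ne_zero.2 (ENNReal.natCast_ne_top _)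

lemma lint_ne_top {A : ℝ} {a : ℕ → ℝ} (h : Good A a) {L : ℝ} (hL : 0 < L) (N : ℕ) :
    ∫⁻ x in BoxPow L N, ENNReal.ofReal (Real.exp (-1 * energy (phi A a) x)) ≠ ⊤ := by
  have h1 := J_ne_top h 0 hL N
  rw [J_eq h] at h1
  simpa using h1

lemma integrable_boltz {A : ℝ} {a : ℕ → ℝ} (h : Good A a) {L : ℝ} (hL : 0 < L) (N : ℕ) :
    IntegrableOn (fun x : Fin N → Space => Real.exp (-1 * energy (phi A a) x)) (BoxPow L N) := by
  have hm : Measurable (fun x : Fin N → E3 => Real.exp (-1 * energy (phi A a) x)) := by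
    simp only [energy_eq]
    exact Real.measurable_exp.comp
      (((measurable_V (measurable_uu A h.sum h.nonneg)).neg).const_mul _)
  refine ⟨hm.aestronglyMeasurable, ?_⟩
  rw [hasFiniteIntegral_iff_ofReal (Eventually.of_forall fun x => (Real.exp_pos _).le)]
  exact lt_top_iff_ne_top.2 (lint_ne_top h hL N)

lemma canonicalZ_eq {A : ℝ} {a : ℕ → ℝ} (h : Good A a) {L : ℝ} (N : ℕ) :
    canonicalZ (phi A a) 1 L N = (1 / (N.factorial : ℝ)) *
      (∫⁻ x in BoxPow L N, ENNReal.ofReal (Real.exp (-1 * energy (phi A a) x))).toReal := by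
  have hm : Measurable (fun x : Fin N → E3 => Real.exp (-1 * energy (phi A a) x)) := by
    simp only [energy_eq]
    exact Real.measurable_exp.comp
      (((measurable_V (measurable_uu A h.sum h.nonneg)).neg).const_mul _)
  unfold canonicalZ
  rw [integral_eq_lintegral_of_nonneg_ae (Eventually.of_forall fun x => (Real.exp_pos _).le)
    hm.aestronglyMeasurable]

lemma term_eq {A : ℝ} {a : ℕ → ℝ} (h : Good A a) {z L : ℝ} (hz : 0 < z) (N : ℕ) :
    z ^ N * canonicalZ (phi A a) 1 L N =
      (((N.factorial : ℝ≥0∞))⁻¹ * J (cube L) (uu A a) (Real.log z) (Fin N)).toReal := by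
  rw [canonicalZ_eq h, J_eq h, ENNReal.toReal_mul, ENNReal.toReal_mul, ENNReal.toReal_inv,
    ENNReal.toReal_natCast, ENNReal.toReal_ofReal (Real.exp_pos _).le]
  have : Real.exp (Real.log z * N) = z ^ N := by
    rw [Real.exp_mul, Real.exp_log hz, Real.rpow_natCast]
  rw [this]
  ring

lemma grandZ_eq {A : ℝ} {a : ℕ → ℝ} (h : Good A a) {z L : ℝ} (hz : 0 < z) (hL : 0 < L) :
    grandZ (phi A a) 1 z L = (Xi (cube L) (ham (uu A a) (Real.log z))).toReal ∧
    Summable (fun N : ℕ => z ^ N * canonicalZ (phi A a) 1 L N) := by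
  have h1 := Xi_cube_ne_top h (Real.log z) hL.le
  rw [Xi_eq (measurableSet_cube L) (measurable_uu A h.sum h.nonneg)] at h1
  have h2 := ENNReal.ne_top_of_tsum_ne_top h1
  constructor
  · unfold grandZ
    rw [Xi_eq (measurableSet_cube L) (measurable_uu A h.sum h.nonneg), ENNReal.tsum_toReal_eq h2]
    exact tsum_congr fun N => term_eq h hz N
  · have h3 := ENNReal.summable_toReal h1
    exact h3.congr fun N => (term_eq h hz N).symm

theorem main : ∃ φ : ℝ → ℝ, Measurable φ ∧ (∃ C : ℝ, ∀ r, |φ r| ≤ C) ∧ LocallyBounded φ ∧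
    IsStable φ ∧ IsTempered φ ∧ HasPhaseTransitionA φ := by
  obtain ⟨a, μ, h2, hnd⟩ := exists_nondiff
  have h := h2.good
  refine ⟨phi AA a, measurable_phi AA h.sum h.nonneg, ⟨_, phi_bounded h⟩, ?_, ?_, ?_, ?_⟩
  · intro _ _ _
    exact ⟨_, fun r _ _ => phi_bounded h r⟩
  · refine ⟨AA / 2, fun N x _ => ?_⟩
    rw [energy_eq]
    have h1 := V_uu_le h.A0 h.sum h.nonneg x
    have h3 := SS_nonneg x
    have h4 := h.le
    rw [Fintype.card_fin] at h1
    have h5 : 0 ≤ (AA - 27 * ∑' n, a n) * SS x := mul_nonneg (by linarith) h3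
    linarith
  · refine ⟨1, 1, 2, one_pos, one_pos, two_pos, fun r hr => ?_⟩
    unfold phi
    rw [if_neg (not_lt.2 hr)]
    have h1 := psi_nonneg h.nonneg r
    have h3 : 0 ≤ 1 * r ^ (-3 - (1 : ℝ)) := by positivity
    linarith
  · refine ⟨1, one_pos, fun z => PP AA a (Real.log z), ⟨?_, ?_, ?_⟩, Real.exp μ, Real.exp_pos μ, ?_⟩
    · intro L N hL
      exact integrable_boltz h hL N
    · intro z L hz hL
      exact (grandZ_eq h hz hL).2
    · intro z hz
      refine (PP_tendsto h (Real.log z)).congr' ?_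
      filter_upwards [eventually_gt_atTop 0] with L hL
      rw [(grandZ_eq h hz hL).1]
      unfold gg
      rw [div_eq_inv_mul]
    · intro hd
      apply hnd
      have h5 : DifferentiableAt ℝ ((fun z => PP AA a (Real.log z)) ∘ Real.exp) μ :=
        DifferentiableAt.comp μ hd Real.differentiableAt_exp
      have h6 : ((fun z => PP AA a (Real.log z)) ∘ Real.exp) = PP AA a := by
        funext ν
        simp
      rwa [h6] at h5

end Vale.Agent.P171
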